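import Crest.Agent.X262.Hb64.Main
import Crest.Agent.X262.Gwb59.Defs

/-!
# Row 262, road B, Hb64 (helper64), part 6: points of an embedded variety

* `IsPt m w z` : the point `w` of `Y` has the homogeneous coordinates `z` in the embedding `m`;
* `exists_isPt`, `IsPt.rel`, `IsPt.same`, `exists_crd` : the dictionary;
* `IsPt.scl`, `IsPt.red`, `IsPt.rs`, `isPt_gen` : naturality;
* `evP C m E z` : evaluation at the point with coordinates `z`; `evP_eq`, `evP_scl`, `evP_red`,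
  `evP_h`, `evP_ty`, `evP_gen`, `evP_rs`;
* `inst C : Gwb.Inst C (th C)`, `inst_ax`.
-/

set_option autoImplicit false

noncomputable section

namespace Crest.Agent.X262.Hb64

open Crest.Agent.X277 Crest.Agent.X277.Lef Crest.Agent.X277.AN.G1 Crest.Agent.X277.BD
  Crest.Agent.X277.BD.Br Crest.Agent.X262.Coh KP
open Crest.Agent.X277.Strat.Fac (un_plc)
open Crest.Agent.X262.Gwb (Tup Pre Rs crdAt)
open Crest.Agent.X262.Vb (Pnt Vr NZ MH pv Prim redP)

variable {X Y : SV} {K E : Type} [Field K] [Algebra ℂ K] [Field E] [Algebra ℂ E]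

/-- the index sets of an embedding -/
abbrev io (m : Pre Y) (j : m.J) : Type := (m.T j).io

/-- the coordinates of the generic point -/
abbrev yy (m : Pre Y) : Pnt (io m) Y.F := fun j => (m.T j).y

/-- all multihomogeneous relations hold at `z` -/
def Rel (m : Pre Y) (z : Pnt (io m) K) : Prop := ∀ q κ, MH q κ → pv (yy m) q = 0 → pv z q = 0

/-- the point `w` has the homogeneous coordinates `z` -/
def IsPt (m : Pre Y) (w : KP Y K) (z : Pnt (io m) K) : Prop :=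
  ∀ j i i', z j i' ≠ 0 → yy m j i / yy m j i' ∈ w.p.O ∧
    w.p.π (yy m j i / yy m j i') = z j i / z j i'

variable {m : Pre Y} {w w' : KP Y K} {z : Pnt (io m) K}

theorem nz_yy (m : Pre Y) : NZ (yy m) := fun j => (m.reg j).1

theorem exists_at (m : Pre Y) (j : m.J) (x : Y.Pt) : ∃ i, At (m.T j).bd x (yy m j i) :=
  ((m.reg j).2 x).elim fun _ hg => hg.exists_mxf (m.reg j).1

theorem at_div_mem {j : m.J} {x : Y.Pt} {i : io m j} (h : At (m.T j).bd x (yy m j i))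
    (l : io m j) : yy m j l / yy m j i ∈ (lp x).O := h.div_mem (mem_Sec_mxf _ l)

theorem IsPt.y_ne (h : IsPt m w z) {j : m.J} {i : io m j} (hi : z j i ≠ 0) : yy m j i ≠ 0 := by
  intro h0
  have h1 := (h j i i hi).2
  rw [h0, div_zero, Plc.π_zero, div_self hi] at h1
  exact zero_ne_one h1

/-- a generator at a point of the closure does not vanish -/
theorem IsPt.ne_of_at (h : IsPt m w z) (hz : NZ z) {x : Y.Pt} (hx : (lp x).O ≤ w.p.O) {j : m.J}
    {i : io m j} (hi : At (m.T j).bd x (yy m j i)) : z j i ≠ 0 := by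
  obtain ⟨l, hl⟩ := hz j
  have h1 : w.p.π (yy m j i / yy m j l) ≠ 0 := un_plc.1 ⟨div_ne_zero hi.ne (h.y_ne hl),
    (h j i l hl).1, by rw [inv_div]; exact hx (at_div_mem hi l)⟩
  rw [(h j i l hl).2] at h1
  exact (div_ne_zero_iff.1 h1).1

/-- a ring which contains the affine coordinates contains the local ring -/
theorem lp_le_of_crd {x : Y.Pt} {q : Plc Y.F K} (h1 : ∀ f ∈ crdAt m.T x, f ∈ q.O)
    (h2 : ∀ c ∈ q.O, AN.G1.ev c x ≠ 0 → q.π c ≠ 0) : (lp x).O ≤ q.O := fun g hg => by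
  obtain ⟨a, ha, c, hc, h3, h4⟩ := m.emb x g hg
  have h5 : Algebra.adjoin ℂ (crdAt m.T x) ≤ q.O := Algebra.adjoin_le h1
  have h6 := h2 c (h5 hc) h3
  rw [eq_div_of_mul_eq (Plc.ne_zero_of_ne h6) h4]
  exact Plc.div_mem (h5 ha) h6

/-- the coordinates determine the point -/
theorem IsPt.same (h : IsPt m w z) (h' : IsPt m w' z) (hz : NZ z) : w.Same w' := by
  obtain ⟨x, hx⟩ := w.pt
  have key : ∀ a ∈ Algebra.adjoin ℂ (crdAt m.T x), a ∈ w.p.O ∧ a ∈ w'.p.O ∧ w.p.π a = w'.p.π a := by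
    intro a ha
    induction ha using Algebra.adjoin_induction with
    | mem a ha =>
      obtain ⟨j, i, i', h1, rfl⟩ := ha
      have h2 := h.ne_of_at hz hx h1
      exact ⟨(h j i i' h2).1, (h' j i i' h2).1, (h j i i' h2).2.trans (h' j i i' h2).2.symm⟩
    | algebraMap c => exact ⟨algebraMap_mem _ c, algebraMap_mem _ c, by rw [Plc.π_alg, Plc.π_alg]⟩
    | add a b _ _ ha hb => exact ⟨add_mem ha.1 hb.1, add_mem ha.2.1 hb.2.1, by
        rw [w.p.π_add ha.1 hb.1, w'.p.π_add ha.2.1 hb.2.1, ha.2.2, hb.2.2]⟩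
    | mul a b _ _ ha hb => exact ⟨mul_mem ha.1 hb.1, mul_mem ha.2.1 hb.2.1, by
        rw [w.p.π_mul ha.1 hb.1, w'.p.π_mul ha.2.1 hb.2.1, ha.2.2, hb.2.2]⟩
  have h1 : ∀ g ∈ (lp x).O, g ∈ w'.p.O ∧ w.p.π g = w'.p.π g := fun g hg => by
    obtain ⟨a, ha, c, hc, h3, h4⟩ := m.emb x g hg
    have h5 : w.p.π c ≠ 0 := Strat.Fac.π_ne hx (Res.Log.un_iff.2 h3)
    have h6 : w'.p.π c ≠ 0 := (key c hc).2.2 ▸ h5
    rw [eq_div_of_mul_eq (Plc.ne_zero_of_ne h5) h4, Plc.π_div (key a ha).1 h5,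
      Plc.π_div (key a ha).2.1 h6, (key a ha).2.2, (key c hc).2.2]
    exact ⟨Plc.div_mem (key a ha).2.1 h6, rfl⟩
  exact ⟨x, hx, fun g hg => (h1 g hg).1, fun g hg => (h1 g hg).2⟩

/-- it is enough to test one chart -/
theorem isPt_of_chart {c : ∀ j, io m j} (hc : ∀ j, z j (c j) ≠ 0)
    (h : ∀ j i, yy m j i / yy m j (c j) ∈ w.p.O ∧
      w.p.π (yy m j i / yy m j (c j)) = z j i / z j (c j)) : IsPt m w z := fun j i i' hi => by
  have h0 : yy m j (c j) ≠ 0 := fun h0 => by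
    have h1 := (h j (c j)).2
    rw [h0, div_zero, Plc.π_zero, div_self (hc j)] at h1
    exact zero_ne_one h1
  have h1 : w.p.π (yy m j i' / yy m j (c j)) ≠ 0 := (h j i').2 ▸ div_ne_zero hi (hc j)
  rw [← div_div_div_cancel_right₀ h0, Plc.π_div (h j i).1 h1, (h j i).2, (h j i').2,
    div_div_div_cancel_right₀ (hc j)]
  exact ⟨Plc.div_mem (h j i).1 h1, rfl⟩



/-- a solution of the equations is a point -/
theorem exists_isPt (hz : NZ z) (h : Rel m z) : ∃ w : KP Y K, IsPt m w z := by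
  choose c hc using hz
  have hy : ∀ j, yy m j (c j) ≠ 0 := fun j h0 => hc j (by
    simpa [pv] using h (MvPolynomial.X ⟨j, c j⟩) _ (MvPolynomial.isWeightedHomogeneous_X ℂ _ _)
      (by simpa [pv] using h0))
  let y : Vr (io m) → Y.F := fun v => yy m v.1 v.2
  let c' : m.J → Vr (io m) := fun j => ⟨j, c j⟩
  let φ : Syz.mchart ℂ Sigma.fst y c' →ₐ[ℂ] K := AlgHom.liftOfSurjective _ (Syz.mpi_surj y c')
    (MvPolynomial.aeval fun v => (z v.1 (c v.1))⁻¹ * z v.1 v.2) fun g hg => by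
      have h0 : Syz.mpi ℂ Sigma.fst y c' g = 0 := hg
      obtain ⟨e, G, hG, h1⟩ := Syz.exists_homog (blk := Sigma.fst) (c := c') (fun _ => rfl) g
      have h2 := h1 Y.F y (fun j => (yy m j (c j))⁻¹) fun j => inv_mul_cancel₀ (hy j)
      have h3 := Syz.coe_mpi (k := ℂ) (blk := Sigma.fst) y c' g
      simp only [h0, ZeroMemClass.coe_zero, div_eq_inv_mul] at h3
      have h4 := (mul_eq_zero.1 (h2.symm.trans h3.symm)).resolve_left
        (Finset.prod_ne_zero_iff.2 fun j _ => pow_ne_zero _ (inv_ne_zero (hy j)))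
      exact (h1 K (fun v => z v.1 v.2) (fun j => (z j (c j))⁻¹)
        fun j => inv_mul_cancel₀ (hc j)).trans (mul_eq_zero_of_right _ (h G e hG h4))
  have h1 : ∀ j i, yy m j i / yy m j (c j) ∈ (plcAt φ).O ∧
      (plcAt φ).π (yy m j i / yy m j (c j)) = z j i / z j (c j) := fun j i => by
    have h2 := Syz.coe_mpi (k := ℂ) (blk := Sigma.fst) y c' (MvPolynomial.X ⟨j, i⟩)
    rw [MvPolynomial.aeval_X] at h2
    rw [show yy m j i / yy m j (c j) = _ from h2.symm, plcAt_π]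
    exact ⟨le_plcAt φ (Subtype.property _), (AlgHom.liftOfSurjective_apply _ _ _ _ _).trans (by
      rw [MvPolynomial.aeval_X, div_eq_inv_mul])⟩
  have : (RingHom.ker (plcAt φ).hom).IsPrime := RingHom.ker_isPrime _
  obtain ⟨V, h2, h3⟩ := Cns.exists_val ((plcAt φ).O.val : (plcAt φ).O →+* Y.F)
    (RingHom.ker (plcAt φ).hom) fun a ha => (show a = 0 from Subtype.ext ha) ▸ zero_mem _
  obtain ⟨x, hx⟩ := Cns.exists_ov Y.P (V := V) fun r => h2 ⟨_, algebraMap_mem _ r⟩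
  refine ⟨⟨plcAt φ, x, lp_le_of_crd (m := m) ?_ fun a ha h4 => (h3 ⟨a, ha⟩).1 (hx.un h4)⟩,
    isPt_of_chart hc h1⟩
  rintro _ ⟨j, i, i', h4, rfl⟩
  rw [← div_div_div_cancel_right₀ (hy j)]
  refine Plc.div_mem (h1 j i).1 ((h3 ⟨_, (h1 j i').1⟩).1
    ⟨div_ne_zero h4.ne (hy j), h2 ⟨_, (h1 j i').1⟩, ?_⟩)
  change (yy m j i' / yy m j (c j))⁻¹ ∈ V
  rw [inv_div]
  exact hx _ (at_div_mem h4 _)

/-- the coordinates of a point satisfy the equations -/
theorem IsPt.rel (h : IsPt m w z) (hz : NZ z) : Rel m z := fun q κ hq h0 => by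
  choose c hc using hz
  have h1 := Syz.aeval_scale (blk := Sigma.fst) (fun j => (yy m j (c j))⁻¹)
    (fun v : Vr (io m) => yy m v.1 v.2) hq
  have h2 := Syz.aeval_scale (blk := Sigma.fst) (fun j => (z j (c j))⁻¹)
    (fun v : Vr (io m) => z v.1 v.2) hq
  have h3 := (Plc.π_aeval (p := w.p) (a := fun v : Vr (io m) => yy m v.1 v.2 / yy m v.1 (c v.1))
    (fun v => (h v.1 v.2 _ (hc _)).1) q).2
  simp only [fun v : Vr (io m) => (h v.1 v.2 _ (hc _)).2] at h3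
  simp only [div_eq_inv_mul] at h3
  rw [h1, h2, show MvPolynomial.aeval (fun v : Vr (io m) => yy m v.1 v.2) q = 0 from h0, mul_zero,
    Plc.π_zero] at h3
  exact (mul_eq_zero.1 h3.symm).resolve_left
    (Finset.prod_ne_zero_iff.2 fun j _ => pow_ne_zero _ (inv_ne_zero (hc j)))

theorem isPt_gen (m : Pre Y) (α : Y.F →ₐ[ℂ] K) : IsPt m (gen Y α) fun j i => α (yy m j i) :=
  fun _ _ _ _ => ⟨Algebra.mem_top, map_div₀ α _ _⟩

theorem IsPt.scl (h : IsPt m w z) {c : m.J → K} (hc : ∀ j, c j ≠ 0) :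
    IsPt m w fun j i => c j * z j i := fun j i i' hi =>
  (mul_div_mul_left (z j i) (z j i') (hc j)).symm ▸ h j i i' (right_ne_zero_of_mul hi)

theorem IsPt.red (h : IsPt m w z) {p : Hb.LP K E} (hp : Prim p.V z) :
    IsPt m (w.red p) (redP p.toPl z) := fun j i i' hi => by
  have h1 : p.V.v (z j i') = 1 := Pl.r_ne_zero_iff.1 hi
  have h2 := h j i i' (RZ.ne_zero_iff.1 (h1 ▸ one_ne_zero))
  refine ⟨⟨h2.1, h2.2 ▸ RZ.le_one_iff.1 ?_⟩, ?_⟩
  · rw [map_div₀, h1, div_one]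
    exact RZ.le_one_iff.2 ((hp j).1 i)
  · rw [red_p, comp_π, h2.2]
    exact Pl.r_div ((hp j).1 i) h1

/-- the data of a restriction of tuples -/
def RsE {X Y : SV} (μ : Hom X Y) (t : Tup Y.F) (t' : Tup X.F) (e : t.io → t'.io) : Prop :=
  ∃ (u : Y.F) (c : X.F), (∀ i, t.y i / u ∈ μ.p.O) ∧ ∀ i, t'.y (e i) = c * μ.p.π (t.y i / u)

theorem IsPt.rs {m : Pre X} {n : Pre Y} {μ : Hom X Y} {g : n.J → m.J}
    {e : ∀ k, io n k → io m (g k)} (he : ∀ k, RsE μ (n.T k) (m.T (g k)) (e k)) {w : KP X K}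
    {z : Pnt (io m) K} (h : IsPt m w z) : IsPt n (w.map μ) fun k i => z (g k) (e k i) := by
  intro k i i' hi
  obtain ⟨u, c, h1, h2⟩ := he k
  have h3 := h.y_ne hi
  have h4 := h (g k) (e k i) (e k i') hi
  change (m.T (g k)).y _ ≠ 0 at h3
  change (m.T (g k)).y _ / (m.T (g k)).y _ ∈ _ ∧ w.p.π ((m.T (g k)).y _ / (m.T (g k)).y _) = _ at h4
  rw [h2] at h3
  rw [h2, h2, mul_div_mul_left _ _ (left_ne_zero_of_mul h3),
    ← Plc.π_div (h1 i) (right_ne_zero_of_mul h3)] at h4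
  have h5 : u ≠ 0 := fun h0 => right_ne_zero_of_mul h3 (by rw [h0, div_zero, Plc.π_zero])
  have h6 := Plc.div_mem (h1 i) (right_ne_zero_of_mul h3)
  rw [div_div_div_cancel_right₀ h5] at h4 h6
  exact ⟨⟨h6, h4.1⟩, h4.2⟩

theorem IsPt.lpbK (h : IsPt m w z) (hz : NZ z) (j : m.J) :
    ∃ u a, LPbK w (m.T j).bd a u ∧ Lin (mxf ℂ (z j)) a := by
  obtain ⟨x₀, h1⟩ := w.pt
  obtain ⟨i, hi⟩ := exists_at m j x₀
  have h0 := h.ne_of_at hz h1 hi
  refine ⟨yy m j i, mxf ℂ (z j) - pr ℂ (z j i), ⟨⟨x₀, h1, hi⟩, fun W x g h3 hg => ?_⟩,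
    z j i, h0, (sub_add_cancel _ _).symm⟩
  obtain ⟨l, hl⟩ := exists_at m j x
  have h4 := h.ne_of_at hz (fun f hf => (h3 f hf).1) hl
  have h5 := hg.ev_div_ne hl
  have h6 := h3 _ (LP.mem_of_ne h5)
  have h7 := h3 _ ((lp x).inv_mem h5)
  have h8 : w.p.π (g / yy m j l) ≠ 0 := un_plc.1 ⟨LP.ne_zero_of_ne h5, h6.1, h7.1⟩
  rw [Plc.π_inv h8] at h7
  rw [val_sub, val_pr h0, val_mxf (i := l) h4 fun s => (RZ.le_iff h4).2
      ((h j s l h4).2 ▸ (h3 _ (at_div_mem hl s)).2),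
    ← div_mul_div_cancel₀ hl.ne, w.p.π_mul h6.1 (h j l i h0).1, map_mul,
    Cns.un_iff_val.1 ⟨h8, h6.2, h7.2⟩, one_mul, (h j l i h0).2, map_div₀]

/-- a constant point -/
def cstP (Y : SV) (K : Type) [Field K] [Algebra ℂ K] : KP Y K :=
  ⟨Cns.plcL K (lp (Classical.arbitrary Y.Pt)), _, le_rfl⟩

open Classical in
/-- the point with given coordinates -/
def kp (m : Pre Y) (z : Pnt (io m) K) : KP Y K :=
  if h : ∃ w, IsPt m w z then h.choose else cstP Y K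

theorem isPt_kp (h : IsPt m w z) : IsPt m (kp m z) z := by
  have h1 : ∃ w, IsPt m w z := ⟨w, h⟩
  rw [kp, dif_pos h1]
  exact h1.choose_spec

theorem Rel.isPt (h : Rel m z) (hz : NZ z) : IsPt m (kp m z) z :=
  (exists_isPt hz h).elim fun _ => isPt_kp

variable (C : Coh.Th) [hC : Ok C]

theorem IsPt.ev_h (h : IsPt m w z) (hz : NZ z) (j : m.J) :
    Hb64.ev C w (m.h C j) = c1H C (mxf ℂ (z j)) := by
  obtain ⟨u, a, h1, h2⟩ := h.lpbK hz j
  rw [ev_c1 C (m.reg j).2 h1, c1H_lin C h2]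

/-- evaluation at the point with given coordinates -/
def evP (m : Pre Y) (K : Type) [Field K] [Algebra ℂ K] (z : Pnt (io m) K) :
    C.H Y →ₐ[ℂ] (th C).H K := Hb64.ev C (kp m z)

theorem evP_eq (h : IsPt m w z) (hz : NZ z) (a : C.H Y) : evP C m K z a = Hb64.ev C w a :=
  ev_same C ((isPt_kp h).same h hz) a

theorem evP_scl (hz : NZ z) (h : Rel m z) {c : m.J → K} (hc : ∀ j, c j ≠ 0) (a : C.H Y) :
    evP C m K (fun j i => c j * z j i) a = evP C m K z a :=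
  evP_eq C ((h.isPt hz).scl hc) (fun j => (hz j).imp fun _ hi => mul_ne_zero (hc j) hi) a

theorem evP_red (p : Hb.LP K E) (hp : Prim p.V z) (h : Rel m z) (a : C.H Y) :
    (th C).pb p (evP C m K z a) = evP C m E (redP p.toPl z) a := by
  have hz : NZ z := fun j => (hp j).2.imp fun _ hi => RZ.ne_zero_iff.1 (hi ▸ one_ne_zero)
  rw [evP_eq C ((h.isPt hz).red hp) fun j => (hp j).2.imp fun _ hi => Pl.r_ne_zero_iff.2 hi]
  exact pbH_ev C p _ a

theorem evP_h (hz : NZ z) (h : Rel m z) (j : m.J) :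
    evP C m K z (m.h C j) = Vb.hc (th C) j K z := (h.isPt hz).ev_h C hz j

theorem evP_ty (z : Pnt (io m) K) {p q : ℕ} {a : C.H Y} (ha : a ∈ C.typ Y p q) :
    evP C m K z a ∈ (th C).ty K p q := ev_mem_tyH C _ ha

theorem evP_gen (m : Pre Y) (α : Y.F →ₐ[ℂ] K) (a : C.H Y) :
    evP C m K (fun j i => α (yy m j i)) a = Hb64.ev C (gen Y α) a :=
  evP_eq C (isPt_gen m α) (fun j => (nz_yy m j).imp fun _ hi => (map_ne_zero α).2 hi) a

theorem itg_evP (m : Pre Y) (a : C.H Y) :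
    (th C).itg Y.F (evP C m Y.F (yy m) a) = C.itg Y a :=
  (congrArg (itgH C Y.F) (evP_gen C m (AlgHom.id ℂ Y.F) a)).trans (itgH_id C Y.P a)

theorem evP_rs {m : Pre X} {n : Pre Y} {μ : Hom X Y} {g : n.J → m.J}
    {e : ∀ k, io n k ≃ io m (g k)} (he : ∀ k, RsE μ (n.T k) (m.T (g k)) (e k))
    {z : Pnt (io m) K} (hz : NZ z) (h : Rel m z) (a : C.H Y) :
    evP C m K z (C.pb μ a) = evP C n K (fun k i => z (g k) (e k i)) a := by
  rw [evP_eq C ((h.isPt hz).rs he) fun k => (hz (g k)).elim fun i hi =>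
    ⟨(e k).symm i, by simpa only [Equiv.apply_symm_apply] using hi⟩]
  exact (ev_map C _ μ a).symm

omit hC in
theorem Rel.rs {m : Pre X} {n : Pre Y} {μ : Hom X Y} {g : n.J → m.J}
    {e : ∀ k, io n k ≃ io m (g k)} (he : ∀ k, RsE μ (n.T k) (m.T (g k)) (e k))
    {z : Pnt (io m) K} (hz : NZ z) (h : Rel m z) : Rel n fun k i => z (g k) (e k i) :=
  ((h.isPt hz).rs he).rel fun k => (hz (g k)).elim fun i hi =>
    ⟨(e k).symm i, by simpa only [Equiv.apply_symm_apply] using hi⟩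

/-- **the evaluation** -/
def inst : Gwb.Inst C (th C) := ⟨fun m K _ _ z => evP C m K z⟩


/-- **the axioms of the evaluation**, from the class of the diagonal -/
theorem inst_ax (hd : ∀ {Y : SV} (m : Gwb.Emb Y) {ι : Type} [Fintype ι] (u u' : ι → C.H Y),
    (∀ a b, C.itg Y (a * b) = ∑ l, C.itg Y (a * u l) * C.itg Y (b * u' l)) →
    Vb.Diag (th C) m.tgt (fun l => ((inst C).e m.toPre).fam (u l))
      fun l => ((inst C).e m.toPre).fam (u' l)) : (inst C).Ax where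
  cls _ a := ⟨fun _ _ _ _ _ _ hc hz h => evP_scl C hz (Pre.on_iff.1 h) hc a,
    fun _ _ _ _ _ _ _ _ p _ hp h => evP_red C p hp (Pre.on_iff.1 h) a⟩
  hc _ j _ _ _ _ _ hz h := evP_h C hz h j
  ty _ _ _ _ ha _ _ _ _ z _ _ := evP_ty C z ha
  itg := itg_evP C
  rs D _ _ _ _ _ hz h a := evP_rs C (fun k => ⟨D.u k, D.c k, D.mem k, D.eq k⟩) hz h a
  diag := hd

end Crest.Agent.X262.Hb64
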