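import Crest.Agent.X262.Hb64.Pt
import Crest.Agent.X262.Coh.Basic
import Crest.Agent.X262.Geo.Dv

-- ▼ part X262/Hb64/Lim
section

/-!
# Row 262, road B, Hb64 (helper64), part 2: the limit ring

* `Ok C`     : the part of `Coh.Th.Ax` which is used;
* `HH C K`   : the direct limit of the cohomology rings of the models of the subfields of `K`;
* `ev C w`   : the pull-back along a `K`-valued point; `ev_same`, `ev_map`, `exists_ev`;
* `pbH C p`  : the pull-back along a place; `pbH_ev`.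
-/

set_option autoImplicit false

noncomputable section

namespace Crest.Agent.X262.Hb64

open Crest.Agent.X277 Crest.Agent.X277.Lef Crest.Agent.X277.AN.G1 Crest.Agent.X277.BD
  Crest.Agent.X277.BD.Br Crest.Agent.X262.Coh KP

/-- the axioms which are used -/
class Ok (C : Coh.Th) : Prop where
  man : C.MAN
  pd : C.PD
  fub : C.FUB
  pl0 : C.PL0
  typ : C.TYP

theorem Ok.of_ax {C : Coh.Th} (h : C.Ax) : Ok C := ⟨h.man, h.pd, h.fub, h.pl0, h.typ⟩

/-- a model of a subfield -/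
structure Ix (K : Type) [Field K] [Algebra ℂ K] where
  /-- the subfield -/
  K₀ : IntermediateField ℂ K
  /-- the model -/
  P : PModel ℂ K₀

variable {X Y : SV} {K E L : Type} [Field K] [Algebra ℂ K] [Field E] [Algebra ℂ E] [Field L]
  [Algebra ℂ L]

/-- the variety -/
abbrev Ix.S (i : Ix K) : SV := sv i.P

/-- the generic point -/
abbrev Ix.w (i : Ix K) : KP i.S K := gen i.S i.K₀.val

instance : Preorder (Ix K) where
  le i j := ∃ μ : Hom j.S i.S, (j.w.map μ).Same i.w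
  le_refl _ := ⟨idH _, .of_eq (map_id _)⟩
  le_trans _ _ _ := fun ⟨μ, h⟩ ⟨ν, h'⟩ =>
    ⟨Mor.comp μ ν, by rw [map_comp]; exact (h'.map μ).trans h⟩

theorem Ix.le_def {i j : Ix K} : i ≤ j ↔ ∃ μ : Hom j.S i.S, (j.w.map μ).Same i.w := Iff.rfl

theorem exists_ix (w : KP X K) : ∃ (i : Ix K) (μ : Hom i.S X), (i.w.map μ).Same w := by
  obtain ⟨K₀, w₀, h1, h2⟩ := exists_fg w
  obtain ⟨P, μ, -, h3⟩ := exists_mor w₀ ∅
  refine ⟨⟨K₀, P⟩, μ, ?_⟩
  rw [← h3, red_map, gen_red] at h2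
  exact h2

theorem exists_ix₂ (w : KP X K) (w' : KP Y K) : ∃ (i : Ix K) (μ : Hom i.S X) (ν : Hom i.S Y),
    (i.w.map μ).Same w ∧ (i.w.map ν).Same w' := by
  obtain ⟨i, μ, h⟩ := exists_ix (w.pair w')
  refine ⟨i, Mor.comp (fst X Y) μ, Mor.comp (snd X Y) μ, ?_, ?_⟩ <;> rw [map_comp]
  · exact (h.map _).trans (pair_fst w w')
  · exact (h.map _).trans (pair_snd w w')

instance : IsDirectedOrder (Ix K) := ⟨fun i j => by
  obtain ⟨k, μ, ν, h1, h2⟩ := exists_ix₂ i.w j.w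
  exact ⟨k, ⟨μ, h1⟩, ⟨ν, h2⟩⟩⟩

instance : Nonempty (Ix K) := by
  have := eft_adjoin (K := K) ∅
  obtain ⟨P⟩ := Unf.nonempty_pmodel (F := IntermediateField.adjoin ℂ ((∅ : Finset K) : Set K))
  exact ⟨⟨_, P⟩⟩

variable (C : Coh.Th) [hC : Ok C]

theorem pb_eq_of_same {μ ν : Hom Y X} {α : Y.F →ₐ[ℂ] K}
    (h : ((gen Y α).map μ).Same ((gen Y α).map ν)) : C.pb μ = C.pb ν :=
  hC.man.pb_congr μ ν (map_eq_of_same h)

/-- the transition maps -/
def tr (i j : Ix K) (h : i ≤ j) : C.H i.S →ₐ[ℂ] C.H j.S := C.pb (Ix.le_def.1 h).choose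

theorem tr_eq {i j : Ix K} (h : i ≤ j) {μ : Hom j.S i.S} (hμ : (j.w.map μ).Same i.w) :
    tr C i j h = C.pb μ :=
  pb_eq_of_same C ((Ix.le_def.1 h).choose_spec.trans hμ.symm)

instance : DirectedSystem (fun i : Ix K => C.H i.S) (tr C · · ·) where
  map_self i x := by
    rw [tr_eq C le_rfl (.of_eq (map_id _))]
    exact hC.man.pb_id _ x
  map_map := fun _ _ _ ⟨μ, h⟩ ⟨ν, h'⟩ x => by
    rw [tr_eq C _ h, tr_eq C _ h', ← hC.man.pb_comp, tr_eq C _ (μ := Mor.comp μ ν)]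
    rw [map_comp]
    exact (h'.map μ).trans h

/-- the limit ring -/
def HH (K : Type) [Field K] [Algebra ℂ K] : Type := DirectLimit (fun i : Ix K => C.H i.S) (tr C)

instance : CommRing (HH C K) :=
  inferInstanceAs (CommRing (DirectLimit (fun i : Ix K => C.H i.S) (tr C)))

instance : Algebra ℂ (HH C K) :=
  inferInstanceAs (Algebra ℂ (DirectLimit (fun i : Ix K => C.H i.S) (tr C)))

/-- the structure maps -/
def ofI (i : Ix K) : C.H i.S →ₐ[ℂ] HH C K :=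
  DirectLimit.Algebra.of (fun i : Ix K => C.H i.S) (tr C) i

theorem ofI_pb {i j : Ix K} {μ : Hom j.S i.S} (h : (j.w.map μ).Same i.w) (a : C.H i.S) :
    ofI C j (C.pb μ a) = ofI C i a := by
  rw [← tr_eq C ⟨μ, h⟩ h]
  exact DirectLimit.Algebra.of_f (G := fun i : Ix K => C.H i.S) (f := tr C) _ a

theorem exists_ofI (x : HH C K) : ∃ i a, x = ofI C i a := DirectLimit.exists_eq_mk (tr C) x

theorem ofI_congr {i j : Ix K} {μ : Hom i.S X} {ν : Hom j.S X}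
    (h : (i.w.map μ).Same (j.w.map ν)) (a : C.H X) : ofI C i (C.pb μ a) = ofI C j (C.pb ν a) := by
  obtain ⟨k, α, β, h1, h2⟩ := exists_ix₂ i.w j.w
  rw [← ofI_pb C h1, ← ofI_pb C h2, ← hC.man.pb_comp, ← hC.man.pb_comp,
    pb_eq_of_same C (α := k.K₀.val) (μ := Mor.comp μ α) (ν := Mor.comp ν β)]
  rw [map_comp, map_comp]
  exact ((h1.map μ).trans h).trans (h2.map ν).symm

/-- the pull-back along a field valued point -/
def ev (w : KP X K) : C.H X →ₐ[ℂ] HH C K :=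
  (ofI C (exists_ix w).choose).comp (C.pb (exists_ix w).choose_spec.choose)

theorem ev_eq {w : KP X K} {i : Ix K} {μ : Hom i.S X} (h : (i.w.map μ).Same w) (a : C.H X) :
    ev C w a = ofI C i (C.pb μ a) :=
  ofI_congr C ((exists_ix w).choose_spec.choose_spec.trans h.symm) a

theorem ev_same {w w' : KP X K} (h : w.Same w') (a : C.H X) : ev C w a = ev C w' a := by
  obtain ⟨i, μ, h1⟩ := exists_ix w
  rw [ev_eq C h1, ev_eq C (h1.trans h)]

theorem ev_map (w : KP Y K) (μ : Hom Y X) (a : C.H X) :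
    ev C (w.map μ) a = ev C w (C.pb μ a) := by
  obtain ⟨i, ν, h⟩ := exists_ix w
  rw [ev_eq C h, ← hC.man.pb_comp, ev_eq C (μ := Mor.comp μ ν)]
  rw [map_comp]
  exact h.map μ

theorem ev_of_same {w : KP Y K} {μ : Hom Y X} {w' : KP X K} (h : (w.map μ).Same w') (a : C.H X) :
    ev C w' a = ev C w (C.pb μ a) := by rw [← ev_map, ev_same C h]

theorem ev_w (i : Ix K) (a : C.H i.S) : ev C i.w a = ofI C i a := by
  rw [ev_eq C (μ := idH _) (.of_eq (map_id _)), hC.man.pb_id]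

theorem exists_ev (x : HH C K) : ∃ (i : Ix K) (a : C.H i.S), x = ev C i.w a := by
  obtain ⟨i, a, rfl⟩ := exists_ofI C x
  exact ⟨i, a, (ev_w C i a).symm⟩


/-- for a function field every class lives on a model of the field -/
theorem exists_ev_id [Algebra.EssFiniteType ℂ K] (x : HH C K) (T : Finset (BD ℂ K)) :
    ∃ (P : PModel ℂ K) (a : C.H (sv P)), (∀ b ∈ T, b ∈ On P) ∧
      x = ev C (gen (sv P) (AlgHom.id ℂ K)) a := by
  obtain ⟨i, a, rfl⟩ := exists_ev C x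
  obtain ⟨P, μ, h1, h2⟩ := exists_mor i.w T
  exact ⟨P, C.pb μ a, h1, by rw [← ev_map, h2]⟩

/-- a compatible family of algebra maps -/
def liftA {A : Type} [CommRing A] [Algebra ℂ A] (g : ∀ i : Ix K, C.H i.S →ₐ[ℂ] A)
    (h : ∀ (i j : Ix K) (μ : Hom j.S i.S), (j.w.map μ).Same i.w → ∀ a, g j (C.pb μ a) = g i a) :
    HH C K →ₐ[ℂ] A :=
  DirectLimit.Algebra.lift (fun i : Ix K => C.H i.S) (tr C) A g
    fun i j hij => h i j _ (Ix.le_def.1 hij).choose_spec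

/-- a compatible family of linear maps -/
def liftL (g : ∀ i : Ix K, C.H i.S →ₗ[ℂ] ℂ)
    (h : ∀ (i j : Ix K) (μ : Hom j.S i.S), (j.w.map μ).Same i.w → ∀ a, g j (C.pb μ a) = g i a) :
    HH C K →ₗ[ℂ] ℂ :=
  DirectLimit.Module.lift ℂ (Ix K) (fun i : Ix K => C.H i.S) (tr C) g
    fun i j hij => h i j _ (Ix.le_def.1 hij).choose_spec

theorem liftL_ofI (g : ∀ i : Ix K, C.H i.S →ₗ[ℂ] ℂ)
    (h : ∀ (i j : Ix K) (μ : Hom j.S i.S), (j.w.map μ).Same i.w → ∀ a, g j (C.pb μ a) = g i a)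
    (i : Ix K) (a : C.H i.S) : liftL C g h (ofI C i a) = g i a := rfl

/-- the pull-back along a place -/
def pbH (p : Hb.LP K E) : HH C K →ₐ[ℂ] HH C E :=
  liftA C (fun i => ev C (i.w.red p)) fun i j μ h a => by
    rw [← ev_map, ← red_map, ev_same C (h.red p)]

theorem pbH_ofI (p : Hb.LP K E) (i : Ix K) (a : C.H i.S) :
    pbH C p (ofI C i a) = ev C (i.w.red p) a := rfl

theorem pbH_ev (p : Hb.LP K E) (w : KP X K) (a : C.H X) :
    pbH C p (ev C w a) = ev C (w.red p) a := by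
  obtain ⟨i, μ, h⟩ := exists_ix w
  rw [ev_eq C h, pbH_ofI, ← ev_map, ← red_map, ev_same C (h.red p)]

theorem pbH_gen (β : K →ₐ[ℂ] E) (α : X.F →ₐ[ℂ] K) (a : C.H X) :
    pbH C (Hb.LP.hom β) (ev C (gen X α) a) = ev C (gen X (β.comp α)) a := by
  rw [pbH_ev, gen_red]

theorem pbH_comp (p : Hb.LP K E) (q : Hb.LP E L) (x : HH C K) :
    pbH C (p.comp q) x = pbH C q (pbH C p x) := by
  obtain ⟨i, a, rfl⟩ := exists_ev C x
  rw [pbH_ev, pbH_ev, pbH_ev, red_comp]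

theorem pbH_id (x : HH C K) : pbH C (Hb.LP.hom (AlgHom.id ℂ K)) x = x := by
  obtain ⟨i, a, rfl⟩ := exists_ev C x
  rw [pbH_ev, red_id]

end Crest.Agent.X262.Hb64
end
end

-- ▼ part X262/Hb64/Itg
section

/-!
# Row 262, road B, Hb64 (helper64), part 3: the integral and the Hodge types

* `itgH C K`   : the integral on the limit; `itgH_gen`, `itgH_pb`, `pdH`, `ptH`;
* `exists_res`, `exists_gen` : the residue field of a point;
* `fubH`       : Fubini;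
* `tyH C K p q`: Hodge types.
-/

set_option autoImplicit false
set_option linter.style.haveILetI false

noncomputable section

namespace Crest.Agent.X262.Hb64

open Crest.Agent.X277 Crest.Agent.X277.Lef Crest.Agent.X277.AN.G1 Crest.Agent.X277.BD
  Crest.Agent.X277.BD.Br Crest.Agent.X262.Coh KP

variable {X Y : SV} {K E L : Type} [Field K] [Algebra ℂ K] [Field E] [Algebra ℂ E] [Field L]
  [Algebra ℂ L]

theorem deg_comp (α : K →ₐ[ℂ] E) (β : E →ₐ[ℂ] L) : deg (β.comp α) = deg α * deg β := by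
  letI := α.toRingHom.toAlgebra
  letI := β.toRingHom.toAlgebra
  letI := (β.comp α).toRingHom.toAlgebra
  haveI : IsScalarTower K E L := IsScalarTower.of_algebraMap_eq fun _ => rfl
  exact (Module.finrank_mul_finrank K E L).symm

variable (C : Coh.Th) [hC : Ok C]

theorem itg_hc_ne (X : SV) : C.itg X (C.hc X ^ X.dim) ≠ 0 := hC.man.itg_hc X ▸ X.dgr_ne

theorem itg_pb_hom {μ : Hom Y X} {α : X.F →ₐ[ℂ] Y.F} (h : μ.p = Plc.ofHom α) (a : C.H X) :
    C.itg Y (C.pb μ a) = deg α * C.itg X a := hC.pd.itg_pb_deg hC.man h a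

/-- the integral -/
def itgH (K : Type) [Field K] [Algebra ℂ K] : HH C K →ₗ[ℂ] ℂ :=
  liftL C (fun i => (deg i.K₀.val : ℂ) • C.itg i.S) fun i j μ h a => by
    obtain ⟨α, h1, h2⟩ := exists_hom_of_same h
    rw [LinearMap.smul_apply, LinearMap.smul_apply, itg_pb_hom C h1, ← h2, deg_comp]
    push_cast
    rw [smul_eq_mul, smul_eq_mul, mul_left_comm, mul_assoc]

theorem itgH_gen (β : X.F →ₐ[ℂ] K) (a : C.H X) :
    itgH C K (ev C (gen X β) a) = deg β * C.itg X a := by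
  obtain ⟨i, μ, h⟩ := exists_ix (gen X β)
  obtain ⟨α, h1, h2⟩ := exists_hom_of_same h
  rw [ev_eq C h, itgH, liftL_ofI, LinearMap.smul_apply, itg_pb_hom C h1, ← h2, deg_comp]
  push_cast
  rw [smul_eq_mul, mul_left_comm, mul_assoc]

theorem itgH_id (P : PModel ℂ K) (a : C.H (sv P)) :
    itgH C K (ev C (gen (sv P) (AlgHom.id ℂ K)) a) = C.itg (sv P) a := by
  rw [itgH_gen, deg_id, Nat.cast_one, one_mul]

theorem itgH_pb (α : K →ₐ[ℂ] E) (x : HH C K) :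
    itgH C E (pbH C (Hb.LP.hom α) x) = deg α * itgH C K x := by
  obtain ⟨i, a, rfl⟩ := exists_ev C x
  rw [pbH_gen, itgH_gen, itgH_gen, deg_comp]
  push_cast
  rw [mul_left_comm, mul_assoc]

theorem pdH [Algebra.EssFiniteType ℂ K] (x : HH C K) (h : ∀ y, itgH C K (x * y) = 0) : x = 0 := by
  obtain ⟨P, a, -, rfl⟩ := exists_ev_id C x ∅
  rw [(hC.pd _).2 a fun b => by rw [← itgH_id, map_mul, h], map_zero]

/-- the pull-back to the generic point is injective -/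
theorem ev_id_injective (P : PModel ℂ K) :
    Function.Injective (ev C (gen (sv P) (AlgHom.id ℂ K))) :=
  (injective_iff_map_eq_zero _).2 fun a ha => (hC.pd _).2 a fun b => by
    rw [← itgH_id, map_mul, ha, zero_mul, map_zero]

theorem dim_self : dim ℂ ℂ = 0 := by
  have h := trdeg_eq_dim (k := ℂ) (F := ℂ)
  rw [trdeg_eq_zero] at h
  exact_mod_cast h.symm

theorem ptH (x : HH C ℂ) : ∃ c : ℂ, x = algebraMap ℂ _ c := by
  obtain ⟨P, a, -, rfl⟩ := exists_ev_id C x ∅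
  obtain ⟨c, rfl⟩ : ∃ c : ℂ, a = algebraMap ℂ _ c := by
    refine hC.man.ind (p := fun a => ∃ c : ℂ, a = algebraMap ℂ _ c) ⟨0, (map_zero _).symm⟩
      (fun k a ha => ?_) ?_ a
    · rcases Nat.eq_zero_or_pos k with rfl | hk
      · exact hC.man.dg_zero _ a ha
      · rw [hC.man.dg_gt (sv P) (k := k) (dim_self.trans_lt hk), Submodule.mem_bot] at ha
        exact ⟨0, by rw [ha, map_zero]⟩
    · rintro _ _ ⟨c, rfl⟩ ⟨d, rfl⟩
      exact ⟨c + d, (map_add _ _ _).symm⟩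
  exact ⟨c, AlgHom.commutes _ c⟩

/-! ### the residue field of a point -/

omit hC in
theorem exists_ind (s : Finset K) :
    ∃ t : Fin (dim ℂ (IntermediateField.adjoin ℂ (s : Set K))) → K,
      (∀ i, t i ∈ s) ∧ AlgebraicIndependent ℂ t := by
  have := eft_adjoin s
  set K₀ := IntermediateField.adjoin ℂ (s : Set K)
  have h0 : IntermediateField.adjoin ℂ (Subtype.val ⁻¹' (s : Set K) : Set K₀) = ⊤ := by
    refine IntermediateField.map_injective K₀.val ?_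
    rw [IntermediateField.adjoin_map, ← AlgHom.fieldRange_eq_map, IntermediateField.fieldRange_val]
    exact congrArg _ (Set.image_preimage_eq_of_subset fun x hx =>
      ⟨⟨x, IntermediateField.subset_adjoin _ _ hx⟩, rfl⟩)
  have h1 : Algebra.IsAlgebraic (Algebra.adjoin ℂ (Subtype.val ⁻¹' (s : Set K) : Set K₀)) K₀ := by
    rw [← IntermediateField.isAlgebraic_adjoin_iff_top, h0]
    infer_instance
  obtain ⟨t, h2, h3⟩ := exists_isTranscendenceBasis_subset (R := ℂ)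
    (Subtype.val ⁻¹' (s : Set K) : Set K₀)
  have h4 := h3.cardinalMk_eq_trdeg
  rw [trdeg_eq_dim] at h4
  obtain ⟨e⟩ := Cardinal.mk_eq_nat_iff.1 h4
  exact ⟨fun i => ((e.symm i : K₀) : K), fun i => h2 (e.symm i).2,
    (h3.1.comp _ e.symm.injective).map' (f := K₀.val) K₀.val.injective⟩

omit hC in
/-- the residue field of a point -/
theorem exists_res (w : KP X K) : ∃ (K₀ : IntermediateField ℂ K) (w₀ : KP X K₀) (x : X.Pt)
    (t : Fin (dim ℂ K₀) → X.F), Algebra.EssFiniteType ℂ K₀ ∧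
    (w₀.red (Hb.LP.hom K₀.val)).Same w ∧ (lp x).O ≤ w.p.O ∧ (∀ i, t i ∈ (lp x).O) ∧
    (AlgebraicIndependent ℂ fun i => w.p.π (t i)) ∧
    ∀ K₁ : IntermediateField ℂ K, (∀ f ∈ (lp x).O, w.p.π f ∈ K₁) → K₀ ≤ K₁ := by
  classical
  obtain ⟨x, hx⟩ := w.pt
  obtain ⟨i, hi⟩ := exists_pat x
  let s : Finset K := Finset.univ.image fun j => w.p.π (X.P.y j / X.P.y i)
  obtain ⟨w₀, h⟩ := exists_desc w (fun j => hx (y_mem hi j))
    (IntermediateField.adjoin ℂ (s : Set K))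
    fun j => IntermediateField.subset_adjoin _ _ (by simp [s])
  obtain ⟨t, h1, h2⟩ := exists_ind s
  choose j hj using fun l => Finset.mem_image.1 (h1 l)
  refine ⟨_, w₀, x, fun l => X.P.y (j l) / X.P.y i, eft_adjoin _, h, hx, fun l => y_mem hi _,
    by rwa [funext fun l => (hj l).2], fun K₁ h3 => IntermediateField.adjoin_le_iff.2 ?_⟩
  intro z hz
  obtain ⟨l, -, rfl⟩ := Finset.mem_image.1 hz
  exact h3 _ (y_mem hi l)

omit hC in
/-- a point with a residue field of full dimension is generic -/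
theorem exists_gen (w : KP X K) {x : X.Pt} (hx : (lp x).O ≤ w.p.O) {t : Fin X.dim → X.F}
    (ht : ∀ i, t i ∈ (lp x).O) (h : AlgebraicIndependent ℂ fun i => w.p.π (t i)) :
    ∃ γ : X.F →ₐ[ℂ] K, w = gen X γ := by
  have key : ∀ f : w.p.O, f ≠ 0 → w.p.hom f ≠ 0 := fun f h0 h1 => by
    let t' : Fin X.dim → w.p.O := fun i => ⟨t i, hx (ht i)⟩
    have h2 : AlgebraicIndependent ℂ (w.p.hom ∘ t') := h
    have h3 : Transcendental (Algebra.adjoin ℂ (Set.range t')) f := fun h3 => by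
      obtain ⟨⟨r, hr⟩, h4, c, h5⟩ := h3.exists_nonzero_dvd (mem_nonZeroDivisors_of_ne_zero h0)
      rw [Algebra.adjoin_range_eq_range_aeval] at hr
      obtain ⟨q, rfl⟩ := hr
      have h6 : w.p.hom (MvPolynomial.aeval t' q) = 0 := by
        rw [show MvPolynomial.aeval t' q = f * c from h5, map_mul, h1, zero_mul]
      rw [← AlgHom.comp_apply, MvPolynomial.comp_aeval] at h6
      have h7 := algebraicIndependent_iff.1 h2 q h6
      exact h4 (Subtype.ext (by simp [h7]))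
    have h4 := ((AlgebraicIndependent.option_iff (x := t') (a := f)).2 ⟨h2.of_comp, h3⟩).map'
      (f := w.p.O.val) Subtype.val_injective
    have h5 := h4.cardinalMk_le_trdeg
    rw [trdeg_eq_dim, Cardinal.mk_fintype, Fintype.card_option, Fintype.card_fin,
      Nat.cast_le] at h5
    exact Nat.not_succ_le_self _ h5
  obtain ⟨i, hi⟩ := exists_pat x
  obtain ⟨γ, hγ⟩ := exists_ofHom (p := w.p) fun f => by
    obtain ⟨a, ha, c, hc, h0, rfl⟩ := X.P.frac' i f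
    exact Plc.div_mem (hx (A_le hi ha))
      (key ⟨c, hx (A_le hi hc)⟩ fun h1 => h0 (congrArg Subtype.val h1))
  exact ⟨γ, KP.ext hγ⟩

/-- a point whose residue field has smaller dimension has no period -/
theorem itgH_eq_zero [Algebra.EssFiniteType ℂ K] {K₀ : IntermediateField ℂ K}
    [Algebra.EssFiniteType ℂ K₀] {w₀ : KP X K₀} {w : KP X K}
    (h : (w₀.red (Hb.LP.hom K₀.val)).Same w) (hd : dim ℂ K ≠ dim ℂ K₀) (a : C.H X) :
    itgH C K (ev C w a) = 0 := by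
  rw [← ev_same C h, ← pbH_ev, itgH_pb, Nat.eq_zero_of_not_pos (mt (deg_pos_iff _).1 hd),
    Nat.cast_zero, zero_mul]

/-! ### Fubini -/

omit hC in
theorem mem_of_same {K₀ : IntermediateField ℂ K} {w₀ : KP X K₀} {γ : X.F →ₐ[ℂ] K}
    (h : (w₀.red (Hb.LP.hom K₀.val)).Same (gen X γ)) (f : X.F) : γ f ∈ K₀ := by
  obtain ⟨x, h1, -, h3⟩ := h
  obtain ⟨i, hi⟩ := exists_pat x
  have key : ∀ a ∈ X.P.A i, γ a ∈ K₀ := fun a ha => by
    have h4 := h3 a (A_le hi ha)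
    rw [red_hom_p] at h4
    exact (show ((w₀.p.π a : K₀) : K) = γ a from h4) ▸ (w₀.p.π a).2
  obtain ⟨a, ha, c, hc, -, rfl⟩ := X.P.frac' i f
  rw [map_div₀]
  exact div_mem (key a ha) (key c hc)

include hC in
theorem dim_prod (X Y : SV) : (X.prod Y).dim = X.dim + Y.dim := by
  by_contra h
  refine mul_ne_zero (itg_hc_ne C X) (itg_hc_ne C Y) ?_
  rw [← hC.fub]
  exact hC.man.itg_dg _ (Ne.symm h) _ (hC.man.dg_mul _ (hC.man.pb_dg _ _ (hC.man.hc_pow X _))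
    (hC.man.pb_dg _ _ (hC.man.hc_pow Y _)))

include hC in
theorem exists_prd [Algebra.EssFiniteType ℂ L] {α₁ : X.F →ₐ[ℂ] L} {α₂ : Y.F →ₐ[ℂ] L}
    (h : Hb.Prd α₁ α₂) : ∃ γ : (X.prod Y).F →ₐ[ℂ] L, Function.Surjective γ ∧
      (gen X α₁).pair (gen Y α₂) = gen (X.prod Y) γ := by
  obtain ⟨K₀, w₀, x, t, h1, h2, h3, h4, h5, h6⟩ := exists_res ((gen X α₁).pair (gen Y α₂))
  have h7 : K₀ = ⊤ := by
    rw [eq_top_iff, ← h.2, sup_le_iff]
    constructor
    · rintro _ ⟨f, rfl⟩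
      refine mem_of_same (w₀ := w₀.map (fst X Y)) ?_ f
      rw [red_map]
      exact (h2.map _).trans (pair_fst _ _)
    · rintro _ ⟨f, rfl⟩
      refine mem_of_same (w₀ := w₀.map (snd X Y)) ?_ f
      rw [red_map]
      exact (h2.map _).trans (pair_snd _ _)
  have h8 : dim ℂ L = dim ℂ K₀ := (deg_pos_iff K₀.val).1 (by
    rw [deg_of_surj fun z => ⟨⟨z, h7 ▸ IntermediateField.mem_top⟩, rfl⟩]
    exact one_pos)
  have h9 : (X.prod Y).dim = dim ℂ K₀ := by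
    rw [← h8, h.1]
    exact dim_prod C X Y
  obtain ⟨γ, hγ⟩ := exists_gen _ h3 (t := fun i => t (Fin.cast h9 i)) (fun i => h4 _)
    (h5.comp _ (Fin.cast_injective h9))
  refine ⟨γ, fun z => ?_, hγ⟩
  refine h6 γ.fieldRange (fun f _ => ?_) (h7 ▸ IntermediateField.mem_top)
  rw [hγ]
  exact ⟨f, rfl⟩

theorem fubH [Algebra.EssFiniteType ℂ K] [Algebra.EssFiniteType ℂ E] [Algebra.EssFiniteType ℂ L]
    (α₁ : K →ₐ[ℂ] L) (α₂ : E →ₐ[ℂ] L) (h : Hb.Prd α₁ α₂) (x : HH C K) (y : HH C E) :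
    itgH C L (pbH C (Hb.LP.hom α₁) x * pbH C (Hb.LP.hom α₂) y) = itgH C K x * itgH C E y := by
  obtain ⟨P, a, -, rfl⟩ := exists_ev_id C x ∅
  obtain ⟨Q, b, -, rfl⟩ := exists_ev_id C y ∅
  obtain ⟨γ, h1, h2⟩ := exists_prd C (X := sv P) (Y := sv Q) h
  rw [pbH_gen, pbH_gen, itgH_id, itgH_id, AlgHom.comp_id, AlgHom.comp_id,
    ev_of_same C (pair_fst (gen (sv P) α₁) (gen (sv Q) α₂)),
    ev_of_same C (pair_snd (gen (sv P) α₁) (gen (sv Q) α₂)), ← map_mul, h2, itgH_gen,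
    deg_of_surj h1, Nat.cast_one, one_mul]
  exact hC.fub _ _ a b

theorem itgH_one : itgH C ℂ 1 = 1 := by
  obtain ⟨P⟩ := Unf.nonempty_pmodel (F := ℂ)
  have h1 := itg_hc_ne C (sv P)
  rw [show (sv P).dim = 0 from dim_self, pow_zero, ← itgH_id, map_one] at h1
  have h2 := fubH C (AlgHom.id ℂ ℂ) (AlgHom.id ℂ ℂ) ⟨by rw [dim_self], eq_top_iff.2 fun z _ =>
    le_sup_left (a := (AlgHom.id ℂ ℂ).fieldRange) ⟨z, rfl⟩⟩ 1 1
  rw [map_one, mul_one] at h2
  exact (mul_eq_left₀ h1).1 h2.symm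

/-! ### Hodge types -/

theorem exists_typ₂ {p q p' q' : ℕ} {w : KP X K} {w' : KP Y K} {a : C.H X} {b : C.H Y}
    (ha : a ∈ C.typ X p q) (hb : b ∈ C.typ Y p' q') : ∃ (i : Ix K) (a' b' : C.H i.S),
    a' ∈ C.typ i.S p q ∧ b' ∈ C.typ i.S p' q' ∧ ev C w a = ev C i.w a' ∧
      ev C w' b = ev C i.w b' := by
  obtain ⟨i, μ, ν, h1, h2⟩ := exists_ix₂ w w'
  exact ⟨i, _, _, hC.typ.pb μ a ha, hC.typ.pb ν b hb, ev_of_same C h1 a, ev_of_same C h2 b⟩

/-- the classes of type `(p, q)` -/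
def tyH (K : Type) [Field K] [Algebra ℂ K] (p q : ℕ) : Submodule ℂ (HH C K) where
  carrier := {x | ∃ (X : SV) (w : KP X K) (a : C.H X), a ∈ C.typ X p q ∧ x = ev C w a}
  zero_mem' := ⟨_, (Classical.arbitrary (Ix K)).w, 0, zero_mem _, (map_zero _).symm⟩
  add_mem' := by
    rintro _ _ ⟨X, w, a, ha, rfl⟩ ⟨Y, w', b, hb, rfl⟩
    obtain ⟨i, a', b', h1, h2, h3, h4⟩ := exists_typ₂ C (w := w) (w' := w') ha hb
    exact ⟨_, i.w, a' + b', add_mem h1 h2, by rw [h3, h4, map_add]⟩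
  smul_mem' := by
    rintro c _ ⟨X, w, a, ha, rfl⟩
    exact ⟨X, w, c • a, Submodule.smul_mem _ c ha, (map_smul _ _ _).symm⟩

variable {p q p' q' : ℕ}

theorem ev_mem_tyH (w : KP X K) {a : C.H X} (ha : a ∈ C.typ X p q) : ev C w a ∈ tyH C K p q :=
  ⟨X, w, a, ha, rfl⟩

theorem tyH_mul {x y : HH C K} (hx : x ∈ tyH C K p q) (hy : y ∈ tyH C K p' q') :
    x * y ∈ tyH C K (p + p') (q + q') := by
  obtain ⟨X, w, a, ha, rfl⟩ := hx
  obtain ⟨Y, w', b, hb, rfl⟩ := hy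
  obtain ⟨i, a', b', h1, h2, h3, h4⟩ := exists_typ₂ C (w := w) (w' := w') ha hb
  rw [h3, h4, ← map_mul]
  exact ev_mem_tyH C _ (hC.typ.mul _ h1 h2)

theorem tyH_pb (π : Hb.LP K E) {x : HH C K} (hx : x ∈ tyH C K p q) :
    pbH C π x ∈ tyH C E p q := by
  obtain ⟨X, w, a, ha, rfl⟩ := hx
  rw [pbH_ev]
  exact ev_mem_tyH C _ ha

theorem typ_gt {a : C.H X} (ha : a ∈ C.typ X p q) (h : X.dim < p ∨ X.dim < q) : a = 0 := by
  rcases h with h | h
  · rwa [hC.typ.gt X q h, Submodule.mem_bot] at ha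
  · have h1 := hC.typ.cj X a ha
    rw [hC.typ.gt X p h, Submodule.mem_bot] at h1
    rw [← hC.man.cj_cj X a, h1, map_zero]

theorem one_mem_typ (X : SV) : (1 : C.H X) ∈ C.typ X 0 0 := by
  have h1 : (⊤ : Submodule ℂ (C.H X)) ≤ C.typ X 0 0 ⊔ ⨆ (k) (_ : k ≠ 0), C.dg X k := by
    rw [← (hC.typ.int X).submodule_iSup_eq_top]
    refine iSup_le fun ⟨p, q⟩ => ?_
    rcases Nat.even_or_odd (p + q) with ⟨k, hk⟩ | hk
    · by_cases h0 : k = 0
      · obtain ⟨rfl, rfl⟩ : p = 0 ∧ q = 0 := by omega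
        exact le_sup_left
      · exact (hC.typ.le X (k := k) (by omega)).trans
          ((le_iSup₂ (f := fun k (_ : k ≠ 0) => C.dg X k) k h0).trans le_sup_right)
    · exact (hC.typ.odd X hk).trans_le bot_le
  obtain ⟨x, hx, y, hy, h2⟩ := Submodule.mem_sup.1 (h1 (Submodule.mem_top (x := 1)))
  have h3 : y ∈ C.dg X 0 := eq_sub_of_add_eq' h2 ▸
    sub_mem (hC.man.dg_one X) (hC.typ.le X (k := 0) rfl hx)
  have h4 := Submodule.disjoint_def.1 ((hC.man.dg_int X).submodule_iSupIndep 0) y h3 hy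
  rwa [← h2, h4, add_zero]

theorem tyH_one : (1 : HH C K) ∈ tyH C K 0 0 :=
  ⟨_, (Classical.arbitrary (Ix K)).w, 1, one_mem_typ C _, (map_one _).symm⟩

theorem exists_typ_id [Algebra.EssFiniteType ℂ K] {x : HH C K} (hx : x ∈ tyH C K p q) :
    ∃ (P : PModel ℂ K) (a : C.H (sv P)), a ∈ C.typ (sv P) p q ∧
      x = ev C (gen (sv P) (AlgHom.id ℂ K)) a := by
  obtain ⟨X, w, a, ha, rfl⟩ := hx
  obtain ⟨P, μ, -, h⟩ := exists_mor w ∅
  exact ⟨P, _, hC.typ.pb μ a ha, ev_of_same C (.of_eq h) a⟩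

theorem tyH_zero [Algebra.EssFiniteType ℂ K] {x : HH C K} (hx : x ∈ tyH C K p q)
    (h : dim ℂ K < p ∨ dim ℂ K < q) : x = 0 := by
  obtain ⟨P, a, ha, rfl⟩ := exists_typ_id C hx
  rw [typ_gt C ha h, map_zero]

theorem tyH_itg [Algebra.EssFiniteType ℂ K] {x : HH C K} (hx : x ∈ tyH C K p q)
    (h : p ≠ dim ℂ K ∨ q ≠ dim ℂ K) : itgH C K x = 0 := by
  by_cases h1 : dim ℂ K < p ∨ dim ℂ K < q
  · rw [tyH_zero C hx h1, map_zero]
  obtain ⟨P, a, ha, rfl⟩ := exists_typ_id C hx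
  rw [itgH_id]
  rcases Nat.even_or_odd (p + q) with ⟨k, hk⟩ | hk
  · exact hC.man.itg_dg (sv P) (k := k) (by change k ≠ dim ℂ K; omega) a
      (hC.typ.le _ (by omega) ha)
  · rw [hC.typ.odd _ hk, Submodule.mem_bot] at ha
    rw [ha, map_zero]

end Crest.Agent.X262.Hb64
end
end

-- ▼ part X262/Hb64/C1
section

/-!
# Row 262, road B, Hb64 (helper64), part 4: the first Chern class and locality

* `c1H C`  : the first Chern class on the limit; `c1H_gen`, `c1H_pr`;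
* `LPbK w b a u`, `ev_c1` : the pull-back of a line bundle along a field valued point;
* `ev_hc`  : the pull-back of the hyperplane class; `pbH_c1`;
* `locH`   : a class depends on the values of finitely many functions.
-/

set_option autoImplicit false

noncomputable section

namespace Crest.Agent.X262.Hb64

open Crest.Agent.X277 Crest.Agent.X277.Lef Crest.Agent.X277.AN.G1 Crest.Agent.X277.BD
  Crest.Agent.X277.BD.Br Crest.Agent.X262.Coh KP
open Crest.Agent.X277.Strat.Fac (two_pt un_plc)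

variable {X Y : SV} {K E L : Type} [Field K] [Algebra ℂ K] [Field E] [Algebra ℂ E] [Field L]
  [Algebra ℂ L]

theorem exists_pb_free {a : BD ℂ K} (ha : Free a) : ∃ s : Finset K,
    ∀ K₀ : IntermediateField ℂ K, (∀ g ∈ s, g ∈ K₀) → ∃ b : BD ℂ K₀, a = pb K₀.val b := by
  obtain ⟨s, h1, h2⟩ := ha
  refine ⟨s, fun K₀ h => ⟨mxf ℂ fun g : s => (⟨g, h g g.2⟩ : K₀), ?_⟩⟩
  rw [pb_mxf]
  exact eq_mxf (fun g => h1 g g.2) fun V => (h2 V).elim fun g hg => ⟨⟨g, hg.1⟩, hg.2⟩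

/-- a b-divisor is a Cartier divisor on a model of a finitely generated subfield -/
theorem exists_pb (a : BD ℂ K) :
    ∃ (i : Ix K) (b : BD ℂ i.K₀), b ∈ On i.P ∧ a = pb i.K₀.val b := by
  classical
  obtain ⟨b, c, hb, hc, rfl⟩ := exists_sub a
  obtain ⟨s, hs⟩ := exists_pb_free hb
  obtain ⟨t, ht⟩ := exists_pb_free hc
  have := eft_adjoin (s ∪ t)
  obtain ⟨b', rfl⟩ := hs (IntermediateField.adjoin ℂ ((s ∪ t : Finset K) : Set K))
    fun g hg => IntermediateField.subset_adjoin _ _ (by simp [hg])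
  obtain ⟨c', rfl⟩ := ht (IntermediateField.adjoin ℂ ((s ∪ t : Finset K) : Set K))
    fun g hg => IntermediateField.subset_adjoin _ _ (by simp [hg])
  obtain ⟨P, hP⟩ := Unf.exists_on {b' - c'}
  exact ⟨⟨_, P⟩, b' - c', hP _ (Finset.mem_singleton_self _), (map_sub _ _ _).symm⟩

/-- two generators at points of the closure of `w` differ by a unit of its local ring -/
theorem exists_frac {W : Subalgebra ℂ X.F} {x x₀ : X.Pt} (hx : (lp x).O ≤ W) (hx₀ : (lp x₀).O ≤ W)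
    {b : BD ℂ X.F} {g u : X.F} (hg : At b x g) (hu : At b x₀ u) :
    ∃ c ∈ (lp x).O, Res.Out.Un W c ∧ c * (g / u) ∈ (lp x).O := by
  classical
  obtain ⟨T, h1, h2⟩ := exists_finset_le (a := -b) (S := (lp x₀).O) (u := u⁻¹)
    fun V hV => (hu.neg V hV).le
  choose! a ha c hc h3 h4 using fun t (ht : t ∈ T) => two_pt hx₀ hx (h1 t ht)
  have h5 : ∏ t ∈ T, c t ∈ (lp x).O := prod_mem hc
  obtain ⟨N, hN⟩ := exists_pow_mem (k := ℂ) (S := (lp x).O) (f := g / u) h5 fun V hV hi => by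
    have h6 := h2 V fun t ht => by
      have h7 : t = a t * (∏ s ∈ T.erase t, c s) * (∏ s ∈ T, c s)⁻¹ := by
        rw [← h4 t ht, mul_assoc t, Finset.mul_prod_erase _ _ ht, mul_inv_cancel_right₀
          (Finset.prod_ne_zero_iff.2 fun s hs => (h3 s hs).1)]
      rw [h7]
      exact mul_mem (mul_mem (hV _ (ha t ht))
        (hV _ (prod_mem fun s hs => hc s (Finset.mem_of_mem_erase hs)))) hi
    rw [map_inv₀, val_neg, inv_le_inv₀ (RZ.pos hu.ne) (b.val_pos V), ← hg V hV] at h6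
    exact (RZ.le_iff hu.ne).1 h6
  exact ⟨_, pow_mem h5 N, (Res.Out.Un.prod _ h3).pow N,
    mem_lp_iff'.2 fun V hV => RZ.le_one_iff.2 (hN V hV)⟩

theorem KP.Same.at_div {w w' : KP X K} (h : w.Same w') {x x₀ : X.Pt} (hx : (lp x).O ≤ w.p.O)
    (hx₀ : (lp x₀).O ≤ w.p.O) {b : BD ℂ X.F} {g u : X.F} (hg : At b x g) (hu : At b x₀ u) :
    g / u ∈ w'.p.O ∧ w.p.π (g / u) = w'.p.π (g / u) := by
  obtain ⟨c, h1, h2, h3⟩ := exists_frac hx hx₀ hg hu
  have h4 := un_plc.1 h2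
  have h5 := h.at hx h1
  have h6 := h.at hx h3
  rw [← mul_div_cancel_left₀ (g / u) h2.1, Plc.π_div (hx h3) h4, Plc.π_div h6.1 (h5.2 ▸ h4), h5.2,
    h6.2]
  exact ⟨Plc.div_mem h6.1 (h5.2 ▸ h4), Eq.refl _⟩

/-- `O(a)` is the pull-back of `O(b)` along the point `w`; the section `u` goes to `1` -/
structure LPbK (w : KP X K) (b : BD ℂ X.F) (a : BD ℂ K) (u : X.F) : Prop where
  gen : ∃ x₀ : X.Pt, (lp x₀).O ≤ w.p.O ∧ At b x₀ u
  val : ∀ (W : RZ ℂ K) (x : X.Pt) (g : X.F), (∀ f ∈ (lp x).O, f ∈ w.p.O ∧ w.p.π f ∈ W.1) →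
    At b x g → W.v (w.p.π (g / u)) = a.val W

theorem LPbK.lpb {w : KP X K} {b : BD ℂ X.F} {u : X.F} {μ : Hom Y X} {β : Y.F →ₐ[ℂ] K}
    {b' : BD ℂ Y.F} (h : LPbK w b (pb β b') u) (hμ : ((Hb64.gen Y β).map μ).Same w) :
    LPbU μ b b' u := by
  intro y g hg W' hW'
  obtain ⟨W, rfl⟩ := cm_surjective β W'
  obtain ⟨x₀, h1, h2⟩ := h.gen
  have h3 : (lp (μ.map y)).O ≤ ((Hb64.gen Y β).map μ).p.O :=
    fun _ hf => ⟨μ.mem_O hf, Algebra.mem_top⟩
  have h4 := h.val W (μ.map y) g (fun f hf => ⟨(hμ.at h3 hf).1,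
    (hμ.at h3 hf).2 ▸ hW' _ (μ.π_mem hf)⟩) hg
  rw [← (hμ.at_div h3 (fun _ hf => (hμ.symm.at h1 hf).1) hg h2).2] at h4
  exact v_eq_val_mp.1 h4

variable (C : Coh.Th) [hC : Ok C]

theorem c1_congr {α : X.F →ₐ[ℂ] K} {β : Y.F →ₐ[ℂ] K} {a : BD ℂ X.F} {b : BD ℂ Y.F}
    (ha : a ∈ X.On) (hb : b ∈ Y.On) (h : pb α a = pb β b) :
    ev C (gen X α) (C.c1 X a) = ev C (gen Y β) (C.c1 Y b) := by
  obtain ⟨i, μ, ν, h1, h2⟩ := exists_ix₂ (gen X α) (gen Y β)
  obtain ⟨α', h3, rfl⟩ := exists_hom_of_same h1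
  obtain ⟨β', h4, rfl⟩ := exists_hom_of_same h2
  rw [← pb_pb, ← pb_pb] at h
  rw [ev_eq C h1, ev_eq C h2, hC.man.c1_dmn h3 ha, hC.man.c1_dmn h4 hb, pb_injective _ h]

/-- the first Chern class as a function -/
def c1F (a : BD ℂ K) : HH C K :=
  ev C (exists_pb a).choose.w (C.c1 _ (exists_pb a).choose_spec.choose)

theorem c1F_gen (α : X.F →ₐ[ℂ] K) {a : BD ℂ X.F} (ha : a ∈ X.On) :
    c1F C (pb α a) = ev C (gen X α) (C.c1 X a) :=
  c1_congr C (exists_pb _).choose_spec.choose_spec.1 ha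
    (exists_pb _).choose_spec.choose_spec.2.symm

/-- the first Chern class -/
def c1H : BD ℂ K →+ HH C K := AddMonoidHom.mk' (c1F C) fun a b => by
  obtain ⟨i, a, ha, rfl⟩ := exists_pb a
  obtain ⟨j, b, hb, rfl⟩ := exists_pb b
  obtain ⟨k, μ, ν, h1, h2⟩ := exists_ix₂ i.w j.w
  obtain ⟨α, h3, h5⟩ := exists_hom_of_same h1
  obtain ⟨β, h4, h6⟩ := exists_hom_of_same h2
  have h7 := pb_mem_On h3 ha
  have h8 := pb_mem_On h4 hb
  rw [← h5, ← h6, ← pb_pb, ← pb_pb, ← map_add, c1F_gen C (X := k.S) _ (add_mem h7 h8),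
    c1F_gen C (X := k.S) _ h7, c1F_gen C (X := k.S) _ h8, hC.man.c1_add _ _ h7 _ h8, map_add]

theorem c1H_gen (α : X.F →ₐ[ℂ] K) {a : BD ℂ X.F} (ha : a ∈ X.On) :
    c1H C (pb α a) = ev C (gen X α) (C.c1 X a) := c1F_gen C α ha

theorem c1H_id {P : PModel ℂ K} {a : BD ℂ K} (ha : a ∈ On P) :
    c1H C a = ev C (gen (sv P) (AlgHom.id ℂ K)) (C.c1 (sv P) a) := by
  rw [← c1H_gen C (X := sv P) _ ha, pb_id]

theorem c1H_pr (f : K) : c1H C (pr ℂ f) = 0 := by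
  have := eft_adjoin {f}
  obtain ⟨P⟩ := Unf.nonempty_pmodel (F := IntermediateField.adjoin ℂ (({f} : Finset K) : Set K))
  have h := c1H_gen C (X := sv P) (IntermediateField.val _)
    (pr_mem ⟨f, IntermediateField.subset_adjoin _ _ (by simp)⟩)
  rwa [pb_pr, hC.man.c1_pr, map_zero] at h

theorem c1H_lin {a b : BD ℂ K} (h : Lin a b) : c1H C a = c1H C b := by
  obtain ⟨f, -, rfl⟩ := h
  rw [map_add, c1H_pr, add_zero]

theorem tyH_c1 (a : BD ℂ K) : c1H C a ∈ tyH C K 1 1 := by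
  obtain ⟨i, b, hb, rfl⟩ := exists_pb a
  rw [c1H_gen C (X := i.S) _ hb]
  exact ev_mem_tyH C _ (hC.typ.c1 i.S b hb)

/-- the first Chern class is natural for field valued points -/
theorem ev_c1 {w : KP X K} {b : BD ℂ X.F} {a : BD ℂ K} {u : X.F} (hb : b ∈ X.On)
    (h : LPbK w b a u) : ev C w (C.c1 X b) = c1H C a := by
  obtain ⟨j, a, ha, rfl⟩ := exists_pb a
  obtain ⟨k, μ, ν, h1, h2⟩ := exists_ix₂ w j.w
  obtain ⟨β, h3, h4⟩ := exists_hom_of_same h2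
  rw [← h4, ← pb_pb] at h ⊢
  rw [c1H_gen C (X := k.S) _ (pb_mem_On h3 ha), ev_of_same C h1,
    hC.man.c1_pb μ b hb _ ⟨u, h.lpb h1⟩]



theorem pbH_c1 (p : Hb.LP K E) (a : BD ℂ K) : pbH C p (c1H C a) = c1H C (p.rs a) := by
  obtain ⟨i, b, hb, rfl⟩ := exists_pb a
  obtain ⟨x₀, h1⟩ := (i.w.red p).pt
  obtain ⟨u, hu⟩ := hb x₀
  have h2 : p.V.v (i.K₀.val u) = (pb i.K₀.val b).val p.V :=
    (val_mp (hu (cm _ (alg_ov i.K₀.val) p.V) fun f hf => (h1 hf).2)).symm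
  rw [c1H_gen C (X := i.S) _ hb, pbH_ev, c1H_lin C (Pl.lin_rs h2)]
  refine ev_c1 C hb (u := u) ⟨⟨x₀, h1, hu⟩, fun W x g h3 hg => ?_⟩
  have h4 : (p.cm W).v (i.K₀.val g) = (pb i.K₀.val b).val (p.cm W) :=
    (val_mp (hg (cm _ (alg_ov i.K₀.val) (p.cm W)) fun f hf => ⟨(h3 f hf).1.2, (h3 f hf).2⟩)).symm
  refine (Pl.val_res (g := i.K₀.val (g / u)) (Pl.val_sub_gen h2) ?_).symm
  rw [map_div₀, map_div₀, val_sub, val_pr (ne_of_val h2), h4]

/-! ### locality -/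

open Classical in
/-- the pull-back to the point with given coordinates -/
def evC (a : C.H X) (i : Fin (X.P.N + 1)) (c : Fin (X.P.N + 1) → E) : HH C E :=
  if h : ∃ w : KP X E, ∀ j, X.P.y j / X.P.y i ∈ w.p.O ∧ w.p.π (X.P.y j / X.P.y i) = c j then
    ev C h.choose a else 0

theorem evC_eq (a : C.H X) {i : Fin (X.P.N + 1)} {c : Fin (X.P.N + 1) → E} {w : KP X E}
    (h : ∀ j, X.P.y j / X.P.y i ∈ w.p.O ∧ w.p.π (X.P.y j / X.P.y i) = c j) :
    evC C a i c = ev C w a := by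
  have h1 : ∃ w : KP X E, ∀ j, X.P.y j / X.P.y i ∈ w.p.O ∧ w.p.π (X.P.y j / X.P.y i) = c j :=
    ⟨w, h⟩
  rw [evC, dif_pos h1]
  exact ev_same C (same_of_chart (fun j => (h1.choose_spec j).1) (fun j => (h j).1)
    fun j => (h1.choose_spec j).2.trans (h j).2.symm) a

theorem evC_map (a : C.H X) (i : Fin (X.P.N + 1)) (c : Fin (X.P.N + 1) → E) (α : E →ₐ[ℂ] L) :
    evC C a i (fun j => α (c j)) = pbH C (Hb.LP.hom α) (evC C a i c) := by
  by_cases h : ∃ w : KP X E, ∀ j, X.P.y j / X.P.y i ∈ w.p.O ∧ w.p.π (X.P.y j / X.P.y i) = c j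
  · obtain ⟨w, h⟩ := h
    rw [evC_eq C a h, pbH_ev]
    refine evC_eq C a fun j => ?_
    rw [red_hom_p]
    exact ⟨⟨(h j).1, Algebra.mem_top⟩, congrArg α (h j).2⟩
  · rw [evC, evC, dif_neg h, map_zero, dif_neg]
    rintro ⟨w', h'⟩
    obtain ⟨w₀, h1⟩ := exists_desc w' (fun j => (h' j).1) α.fieldRange fun j => ⟨c j, (h' j).2.symm⟩
    obtain ⟨x, h2, h3⟩ := Strat.Fac.exists_pt_le (P := X.P) (i := i) (q := w'.p)
      (Algebra.adjoin_le (Set.range_subset_iff.2 fun j => (h' j).1))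
    refine h ⟨w₀.red (Hb.LP.hom α.equivFieldRange.symm.toAlgHom), fun j => ?_⟩
    have h4 := h1.symm.at h3 (y_mem h2 j)
    rw [red_hom_p] at h4 ⊢
    refine ⟨⟨h4.1.1, Algebra.mem_top⟩, ?_⟩
    exact α.equivFieldRange.symm_apply_eq.2 (Subtype.ext (h4.2.symm.trans (h' j).2))

omit hC in
theorem mem_iff_r (p : Hb.LP K E) (f : K) : p.r (1 + f) = 1 + p.r f ↔ f ∈ p.V.1 := by
  refine ⟨fun h => by_contra fun h1 => ?_, fun h => by rw [Pl.r_add (one_mem _) h, Pl.r_one]⟩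
  have h2 : 1 + f ∉ p.V.1 := fun h2 => h1 (by simpa using sub_mem h2 (one_mem _))
  rw [show p.r f = 0 from dif_neg h1, show p.r (1 + f) = 0 from dif_neg h2, add_zero] at h
  exact zero_ne_one h

theorem locH (x : HH C K) : ∃ (s : Finset K)
    (Φ : ∀ (E : Type) [Field E] [Algebra ℂ E], (s → E) → HH C E),
    (∀ (E : Type) [Field E] [Algebra ℂ E] (p : Hb.LP K E), pbH C p x = Φ E fun f => p.r f) ∧
    ∀ (E E' : Type) [Field E] [Algebra ℂ E] [Field E'] [Algebra ℂ E'] (α : E →ₐ[ℂ] E')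
      (z : s → E), Φ E' (fun f => α (z f)) = pbH C (Hb.LP.hom α) (Φ E z) := by
  classical
  obtain ⟨I, a, rfl⟩ := exists_ev C x
  let t : Fin (I.P.N + 1) × Fin (I.P.N + 1) → K := fun q => I.K₀.val (I.P.y q.2 / I.P.y q.1)
  let s : Finset K := Finset.univ.image t ∪ Finset.univ.image fun q => 1 + t q
  let e₁ : Fin (I.P.N + 1) → Fin (I.P.N + 1) → s := fun i j =>
    ⟨t (i, j), Finset.mem_union_left _ (Finset.mem_image_of_mem _ (Finset.mem_univ _))⟩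
  let e₂ : Fin (I.P.N + 1) → Fin (I.P.N + 1) → s := fun i j =>
    ⟨1 + t (i, j), Finset.mem_union_right _ (Finset.mem_image_of_mem _ (Finset.mem_univ (i, j)))⟩
  refine ⟨s, fun E _ _ z => evC C (X := I.S) a
    (Classical.epsilon fun i => ∀ j, z (e₂ i j) = 1 + z (e₁ i j)) fun j =>
      z (e₁ (Classical.epsilon fun i => ∀ j, z (e₂ i j) = 1 + z (e₁ i j)) j),
    fun E _ _ p => ?_, fun E E' _ _ _ _ α z => ?_⟩
  · obtain ⟨i, hi⟩ := (I.w.red p).exists_chart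
    have h1 := Classical.epsilon_spec (p := fun i => ∀ j, p.r (e₂ i j) = 1 + p.r (e₁ i j))
      ⟨i, fun j => (mem_iff_r p _).2 (hi j).2⟩
    rw [pbH_ev]
    exact (evC_eq C a (w := I.w.red p) fun j =>
      ⟨⟨Algebra.mem_top, (mem_iff_r p _).1 (h1 j)⟩, rfl⟩).symm
  · have h1 : (fun i => ∀ j, α (z (e₂ i j)) = 1 + α (z (e₁ i j))) =
        fun i => ∀ j, z (e₂ i j) = 1 + z (e₁ i j) := funext fun i => propext
      (forall_congr' fun j => by
        rw [← map_one α, ← map_add]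
        exact α.injective.eq_iff)
    simp only [h1]
    exact evC_map C a _ _ α

end Crest.Agent.X262.Hb64
end
end

-- ▼ part X262/Hb64/Main

/-!
# Row 262, road B, Hb64 (helper64), part 5: the cycle formula and the theory

* `exists_dv` : a boundary component of a log resolution is a smooth divisor;
* `cycH`      : the cycle formula;
* `th C`, `th_ax C : (th C).Ax`.
-/

set_option autoImplicit false

noncomputable section

namespace Crest.Agent.X262.Hb64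

open Crest.Agent.X277 Crest.Agent.X277.Lef Crest.Agent.X277.AN.G1 Crest.Agent.X277.BD
  Crest.Agent.X277.BD.Br Crest.Agent.X262.Coh KP
open Crest.Agent.X277.Pst (Dvs Prm)
open Crest.Agent.X277.BD.Cyc (Rf)
open Crest.Agent.X277.Neg (nv)
open Crest.Agent.X277.Res.Log (Bd LogRes)
open Crest.Agent.X262.Geo (od dv sp)

variable {K : Type} [Field K] [Algebra ℂ K] {P : PModel ℂ K} {n : ℕ} {V : RZ ℂ K}

/-- the generic point of the centre of `V` -/
abbrev cen (P : PModel ℂ K) (V : RZ ℂ K) : KP (sv P) (Rf V) :=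
  (gen (sv P) (AlgHom.id ℂ K)).red (Hb.LP.at V)

theorem cen_p : (cen P V).p = plc (Hb.LP.at V) := comp_id _

theorem pl_bd (B : Bd P n) (hV : Prm (oP P) V) {e : B.ι} (he : B.v e = nv V) :
    Strat.Fac.Pl B (plc (Hb.LP.at V)) (n - 1) := by
  classical
  have := Geo.eft P
  have h0 : ∀ f, f ∈ (plc (Hb.LP.at V)).O ↔ B.v e f ≤ 1 := fun f =>
    he ▸ (Geo.nv_le_one hV.dvs).symm
  have h1 : ∀ f, B.v e f ≤ 1 → ((plc (Hb.LP.at V)).π f = 0 ↔ B.v e f < 1) := fun f hf =>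
    (Pl.r_eq_zero ((h0 f).2 hf)).trans (he ▸ (Geo.nv_lt_one hV.dvs).symm)
  have h2 : ∀ x : Pts P, (lp x).O ≤ (plc (Hb.LP.at V)).O → Res.Log.On (B.v e) x :=
    fun x hx f hf => (h0 f).1 (hx hf)
  obtain ⟨x₀, hx₀⟩ := B.ne e
  have h3 : ∀ e', Strat.Fac.In B (plc (Hb.LP.at V)) e' ↔ e' = e := fun e' => by
    refine ⟨fun h => by_contra fun h4 => ?_, fun h f hf => h ▸ (h0 f).1 hf⟩
    have h5 := h.on fun f hf => (h0 f).2 (hx₀ f hf)
    have h6 := h (B.τ e' x₀)⁻¹ ((h0 _).2 (by rw [map_inv₀, Bd.v_τ_ne hx₀ (Ne.symm h4), inv_one]))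
    rw [map_inv₀, inv_le_one₀ (Link.v_pos (B.τ_ne e' x₀))] at h6
    exact (Bd.v_τ_lt h5).not_ge h6
  refine ⟨fun z => ?_, ⟨x₀, fun f hf => (h0 f).2 (hx₀ f hf)⟩, ?_, fun x hx f hf => ?_,
    fun x hx f hf h => ?_⟩
  · obtain ⟨f, rfl⟩ := Cyc.surj_plV V z
    exact ⟨f, f.2, Pl.r_coe _ f⟩
  · obtain ⟨t, σ, -⟩ := B.snc x₀
    have h4 := (σ ⟨e, hx₀⟩).pos
    have h5 : Nat.card {e' // Strat.Fac.In B (plc (Hb.LP.at V)) e'} = 1 := by
      simp only [h3, Nat.card_unique]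
    omega
  · obtain ⟨c, h4, h5, h6⟩ := (Link.bd_eqn B (h2 x hx)).loc.den f ((h0 f).1 hf)
    exact ⟨c * f, h6, c, h4, fun h7 => ((h1 c h5.le).1 h7).ne h5, mul_comm _ _⟩
  · refine ⟨Pi.single e (f / B.τ e x), fun e' => ?_, fun e' h4 => ?_, ?_⟩
    · by_cases h4 : e' = e
      · rw [h4, Pi.single_eq_same]
        exact Bd.div_mem (h2 x hx) hf ((h1 f (h2 x hx f hf)).1 h)
      · rw [Pi.single_eq_of_ne h4]
        exact zero_mem _
    · exact Pi.single_eq_of_ne (fun h5 => h4 ((h3 e').2 h5)) _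
    · rw [Finset.sum_eq_single e (fun e' _ h4 => by rw [Pi.single_eq_of_ne h4, zero_mul])
        (by simp), Pi.single_eq_same, div_mul_cancel₀ _ (B.τ_ne e x)]

/-- a boundary component is a smooth divisor -/
theorem exists_dv (B : Bd P n) (hV : Prm (oP P) V) {e : B.ι} (he : B.v e = nv V) :
    ∃ (Q : PModel ℂ (Rf V)) (j : Hom (sv Q) (sv P)), j.p = (cen P V).p ∧ IsDv j (dv P V) := by
  have := Geo.eft P
  obtain ⟨Q, h⟩ := (pl_bd B hV he).exists_mdl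
  refine ⟨Q, h.mor, cen_p.symm, ⟨fun x y hxy => (h.ov x).eq_up (hxy ▸ h.ov y),
    fun x => (h.ov x).surj⟩, fun y hy => Geo.at_dv_off fun h1 => ?_, fun x => ?_⟩
  · obtain ⟨x, hx⟩ := h.down y h1
    exact hy ⟨x, h.map_eq hx⟩
  · have h1 : Cns.Ov (h.mor.map x) V.1 := (h.ov x).le
    obtain ⟨t, ht⟩ := Geo.exists_eqn hV h1
    refine ⟨t, ht.mem, Geo.at_dv hV ht, fun f hf => ?_⟩
    refine ((Pl.r_eq_zero (p := Cyc.plV V) (h1 f hf)).trans (Geo.nv_lt_one hV.dvs).symm).trans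
      ⟨ht.div f hf, fun h2 => ?_⟩
    rw [← div_mul_cancel₀ f ht.ne, map_mul]
    exact (mul_le_of_le_one_left' (ht.loc.le _ h2)).trans_lt ht.lt

theorem v_mon {B : Bd P n} {g : K} (hg : B.Mon g) (hV : Prm (oP P) V) (h : ∀ e, B.v e ≠ nv V) :
    V.v g = 1 := by
  have := Geo.eft P
  obtain ⟨x, hx⟩ := Geo.exists_ov (P := P) V
  have h1 := (Geo.on_nv hV.dvs).2 hx
  have h2 := h1.v_un (hg x)
  have h3 : nv V (B.mon x fun e => Res.Out.ord (B.v e) g) = 1 := by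
    rw [Bd.mon, map_prod]
    refine Finset.prod_eq_one fun e _ => ?_
    by_cases he : Res.Log.On (B.v e) x
    · rw [map_zpow₀, (Link.bd_eqn B he).v_ne (Geo.isPD_nv hV) h1 (h e).symm, one_zpow]
    · rw [B.off e x he, one_zpow, map_one]
  rw [map_div₀, h3, div_one] at h2
  exact (Geo.nv_eq_one hV.dvs).1 h2

/-- a model on which the components of `a` are smooth -/
theorem exists_snc [Algebra.EssFiniteType ℂ K] (a : BD ℂ K) (T : Finset (BD ℂ K)) :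
    ∃ (P : PModel ℂ K) (n : ℕ) (B : Bd P n), (∀ b ∈ T, b ∈ On P) ∧
      ∀ V, Prm (oP P) V → od V a ≠ 0 → ∃ e, B.v e = nv V := by
  classical
  obtain ⟨P₀⟩ := Unf.nonempty_pmodel (F := K)
  obtain ⟨b₀⟩ := exists_basis P₀
  obtain ⟨b, c, ⟨s, -, hs⟩, ⟨t, -, ht⟩, rfl⟩ := exists_sub a
  obtain ⟨P, B, 𝒢, h1, h2, -, h3⟩ := Unf.exists_logRes_on b₀ P₀ {s, t} T
  refine ⟨P, _, B, h3, fun V hV h => by_contra fun h4 => h ?_⟩
  obtain ⟨f, hf, h5⟩ := hs V
  obtain ⟨g, hg, h6⟩ := ht V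
  rw [Geo.od_eq_zero hV.dvs, val_sub, ← h5, ← h6,
    v_mon (h2.mon s (h1 (by simp)) f hf (ne_of_val h5)) hV (not_exists.1 h4),
    v_mon (h2.mon t (h1 (by simp)) g hg (ne_of_val h6)) hV (not_exists.1 h4), div_one]

variable (C : Coh.Th) [hC : Ok C]

/-- exceptional divisors have no periods -/
theorem itgH_exc (hV : Dvs V) (h : ¬ Prm (oP P) V) (y : C.H (sv P)) :
    itgH C (Rf V) (ev C (cen P V) y) = 0 := by
  have := Geo.eft P
  have := Geo.essFT_Rf hV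
  obtain ⟨K₀, w₀, x, t, h1, h2, h3, h4, h5, -⟩ := exists_res (cen P V)
  refine itgH_eq_zero C h2 (fun h6 => h ?_) y
  rw [cen_p] at h3 h5
  have h7 : Gj.dm ℂ K - 1 = dim ℂ K₀ := by rw [Geo.dm_eq, Geo.dim_Rf' hV, h6]; rfl
  exact ⟨hV.ne_top, fun i => t (Fin.cast h7 i), fun i => Geo.lp_le_loc h3 (h4 _),
    (Geo.resInd_iff (Cyc.lnr_plV V) fun i => h3 (h4 _)).2 (h5.comp _ (Fin.cast_injective h7))⟩

theorem itg_dv {Q : PModel ℂ (Rf V)} {j : Hom (sv Q) (sv P)} (h1 : j.p = (cen P V).p)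
    (h2 : IsDv j (dv P V)) (y : C.H (sv P)) :
    C.itg (sv P) (C.c1 (sv P) (dv P V) * y) = itgH C (Rf V) (ev C (cen P V) y) := by
  rw [← hC.pl0 j _ h2, hC.pd.push_spec, one_mul, ← map_gen_id h1, ev_map, itgH_id]

/-- **cycle formula** -/
theorem cycH [Algebra.EssFiniteType ℂ K] (a : BD ℂ K) (x : HH C K) :
    itgH C K (c1H C a * x) =
      ∑ᶠ (V : RZ ℂ K) (_ : Dvs V), od V a * itgH C (Rf V) (pbH C (Hb.LP.at V) x) := by
  classical
  obtain ⟨i, y, rfl⟩ := exists_ev C x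
  obtain ⟨a₀, h₀⟩ := exists_bd i.w
  obtain ⟨P, n, B, h1, h2⟩ := exists_snc a {a, a₀}
  obtain ⟨μ, hμ⟩ := h₀ P (h1 _ (by simp))
  have ha : a ∈ On P := h1 _ (by simp)
  rw [← map_gen_id hμ, ev_map, c1H_id C ha, ← map_mul, itgH_id]
  simp only [pbH_ev]
  rw [finsum_cond_eq_sum_of_cond_iff (fun V => (od V a : ℂ) * itgH C (Rf V) (ev C (cen P V)
    (C.pb μ y))) (t := sp P a) fun {V} h => ⟨fun hV => Geo.mem_sp.2
    ⟨by_contra fun h3 => right_ne_zero_of_mul h (itgH_exc C hV h3 _),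
      Int.cast_ne_zero.1 (left_ne_zero_of_mul h)⟩, fun hV => (Geo.mem_sp.1 hV).1.dvs⟩]
  conv_lhs => rw [Geo.eq_sum_sp ha]
  rw [hC.man.c1_sum (X := sv P) _ fun V _ => zsmul_mem (Geo.dv_mem V) _, Finset.sum_mul, map_sum]
  refine Finset.sum_congr rfl fun V hV => ?_
  obtain ⟨h3, h4⟩ := Geo.mem_sp.1 hV
  obtain ⟨e, he⟩ := h2 V h3 h4
  obtain ⟨Q, j, h5, h6⟩ := exists_dv B h3 he
  rw [hC.man.c1_zsmul (X := sv P) (Geo.dv_mem V), smul_mul_assoc, map_zsmul, itg_dv C h5 h6,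
    zsmul_eq_mul]

/-- **the b-cohomology theory of a cohomology theory** -/
def th : Hb.Th where
  H K _ _ := HH C K
  cr _ _ _ := inferInstance
  al _ _ _ := inferInstance
  pb p := pbH C p
  itg K _ _ := itgH C K
  c1 := c1H C
  ty K _ _ := tyH C K





theorem th_ax : (th C).Ax where
  pb_comp := pbH_comp C
  pb_id := pbH_id C
  loc := locH C
  c1_pr := c1H_pr C
  pb_c1 := pbH_c1 C
  deg α := itgH_pb C α
  cyc := cycH C
  pd := pdH C
  itg_one := itgH_one C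
  pt := ptH C
  fub := fubH C
  ty_one := tyH_one C
  ty_c1 := tyH_c1 C
  ty_mul := tyH_mul C
  ty_pb π _ _ _ := tyH_pb C π
  ty_itg := tyH_itg C
  ty_zero := tyH_zero C

end Crest.Agent.X262.Hb64
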