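import Crest.Agent.X262.Coh.Defs
import Crest.Agent.X262.Hb.Defs
import Crest.Agent.X277.Strat.StB
import Crest.Agent.X277.Unf.Main

/-!
# Row 262, road B, Hb64 (helper64), part 1: field valued points

* `KP X K`  : `K`-valued points of `X`; `Same` : equality as morphisms `Spec K → X`;
* `w.map μ`, `w.red p`, `gen X α` : image, reduction along a place, generic points;
* `map_eq_of_same` : a morphism is determined by the image of the generic point;
* `exists_mor`     : a point with values in a function field is a morphism on a suitable model;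
* `exists_fg`      : a point is defined over a finitely generated subfield.
-/

set_option autoImplicit false

noncomputable section

namespace Crest.Agent.X262.Hb64

open Crest.Agent.X277 Crest.Agent.X277.Lef Crest.Agent.X277.AN.G1 Crest.Agent.X277.BD
  Crest.Agent.X277.BD.Br Crest.Agent.X262.Coh
open Crest.Agent.X277.Strat.Fac (two_pt un_plc exists_pt_le psi)

section Plc

variable {F K E L : Type} [Field F] [Algebra ℂ F] [Field K] [Algebra ℂ K] [Field E] [Algebra ℂ E]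
  [Field L] [Algebra ℂ L]

theorem plc_ext {p q : Plc F K} (h1 : ∀ f, f ∈ p.O ↔ f ∈ q.O) (h2 : ∀ f, p.π f = q.π f) :
    p = q := by
  obtain ⟨O, π, _, _, _, _, _⟩ := p
  obtain ⟨O', π', _, _, _, _, _⟩ := q
  obtain rfl : O = O' := SetLike.ext h1
  obtain rfl : π = π' := funext h2
  rfl


theorem comp_π (q : Plc K E) (p : Plc F K) (f : F) : (q.comp p).π f = q.π (p.π f) := rfl

theorem comp_assoc (r : Plc E L) (q : Plc K E) (p : Plc F K) :
    (r.comp q).comp p = r.comp (q.comp p) :=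
  plc_ext (fun _ => and_assoc.symm) fun _ => rfl

theorem id_comp (p : Plc F K) : (Plc.ofHom (AlgHom.id ℂ K)).comp p = p :=
  plc_ext (fun _ => ⟨fun h => h.1, fun h => ⟨h, Algebra.mem_top⟩⟩) fun _ => rfl

theorem comp_id (p : Plc F K) : p.comp (Plc.ofHom (AlgHom.id ℂ F)) = p :=
  plc_ext (fun _ => ⟨fun h => h.2, fun h => ⟨Algebra.mem_top, h⟩⟩) fun _ => rfl

theorem ofHom_comp (β : K →ₐ[ℂ] E) (α : F →ₐ[ℂ] K) :
    (Plc.ofHom β).comp (Plc.ofHom α) = Plc.ofHom (β.comp α) :=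
  plc_ext (fun _ => ⟨fun _ => Algebra.mem_top, fun _ => ⟨Algebra.mem_top, Algebra.mem_top⟩⟩)
    fun _ => rfl

/-- a linear place as a local ring with a residue map -/
def plc (p : Hb.LP K E) : Plc K E where
  O := { p.V.1.toSubring with algebraMap_mem' := p.V.2 }
  π := p.r
  π_add h h' := Pl.r_add h h'
  π_mul h h' := Pl.r_mul h h'
  π_alg := p.lnr
  π_off h := dif_neg h
  inv_mem h := RZ.le_one_iff.1 (by rw [map_inv₀, Pl.r_ne_zero_iff.1 h, inv_one])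



theorem plc_hom (α : K →ₐ[ℂ] E) : plc (Hb.LP.hom α) = Plc.ofHom α :=
  plc_ext (fun f => ⟨fun _ => Algebra.mem_top, fun _ => ValuationSubring.mem_top f⟩)
    fun f => Pl.r_ofHom _ (alg_ov α) f

theorem r_comp (p : Hb.LP K E) (q : Hb.LP E L) (f : K) : (p.comp q).r f = q.r (p.r f) := by
  by_cases h : f ∈ (p.cm q.V).1
  · exact Pl.r_eq _ h
  · rw [show (p.comp q).r f = 0 from dif_neg h]
    exact ((plc q).comp (plc p)).π_off h |>.symm

theorem plc_comp (p : Hb.LP K E) (q : Hb.LP E L) : plc (p.comp q) = (plc q).comp (plc p) :=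
  plc_ext (fun _ => Iff.rfl) (r_comp p q)

/-- a place whose ring is the whole field -/
theorem exists_ofHom {p : Plc F K} (h : ∀ f, f ∈ p.O) : ∃ α : F →ₐ[ℂ] K, p = Plc.ofHom α :=
  ⟨p.hom.comp ((AlgHom.id ℂ F).codRestrict p.O h),
    plc_ext (fun f => ⟨fun _ => Algebra.mem_top, fun _ => h f⟩) fun _ => rfl⟩

end Plc

/-- a `K`-valued point of `X` -/
@[ext] structure KP (X : SV) (K : Type) [Field K] [Algebra ℂ K] where
  /-- the place -/
  p : Plc X.F K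
  pt : ∃ x : X.Pt, (lp x).O ≤ p.O

variable {X Y Z : SV} {K E L : Type} [Field K] [Algebra ℂ K] [Field E] [Algebra ℂ E] [Field L]
  [Algebra ℂ L]

theorem pt_of_chart {q : Plc X.F K} {i : Fin (X.P.N + 1)} (h : ∀ j, X.P.y j / X.P.y i ∈ q.O) :
    ∃ x : X.Pt, (lp x).O ≤ q.O := by
  obtain ⟨x, -, hx⟩ := exists_pt_le (P := X.P) (i := i) (q := q)
    (Algebra.adjoin_le (Set.range_subset_iff.2 h))
  exact ⟨x, hx⟩

/-- the generic point -/
def gen (X : SV) (α : X.F →ₐ[ℂ] K) : KP X K :=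
  ⟨Plc.ofHom α, pt_of_chart (i := 0) fun _ => Algebra.mem_top⟩

namespace KP

theorem exists_chart (w : KP X K) : ∃ i, ∀ j, X.P.y j / X.P.y i ∈ w.p.O := by
  obtain ⟨x, hx⟩ := w.pt
  obtain ⟨i, hi⟩ := exists_pat x
  exact ⟨i, fun j => hx (y_mem hi j)⟩

/-- change of the chart -/
theorem chg (w : KP X K) {i j : Fin (X.P.N + 1)} (hi : ∀ l, X.P.y l / X.P.y i ∈ w.p.O)
    (hj : w.p.π (X.P.y j / X.P.y i) ≠ 0) (l : Fin (X.P.N + 1)) : X.P.y l / X.P.y j ∈ w.p.O ∧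
      w.p.π (X.P.y l / X.P.y j) = w.p.π (X.P.y l / X.P.y i) / w.p.π (X.P.y j / X.P.y i) := by
  rw [y_div i j l]
  exact ⟨Plc.div_mem (hi l) hj, Plc.π_div (hi l) hj⟩

theorem π_self (w : KP X K) (i : Fin (X.P.N + 1)) : w.p.π (X.P.y i / X.P.y i) = 1 := by
  rw [div_self (X.P.y_ne i), Plc.π_one]

/-- the image under a morphism -/
def map (w : KP Y K) (μ : Hom Y X) : KP X K :=
  ⟨w.p.comp μ.p, w.pt.elim fun y hy => ⟨μ.map y, fun _ hf => ⟨μ.mem_O hf, hy (μ.π_mem hf)⟩⟩⟩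

/-- the reduction along a place -/
def red (w : KP X K) (p : Hb.LP K E) : KP X E :=
  ⟨(plc p).comp w.p, by
    obtain ⟨i, hi⟩ := w.exists_chart
    obtain ⟨j, hj⟩ := Finite.exists_max fun j => p.V.v (w.p.π (X.P.y j / X.P.y i))
    have h0 : w.p.π (X.P.y j / X.P.y i) ≠ 0 := fun h => by
      have h1 := hj i
      rw [h, w.π_self, map_one, map_zero] at h1
      exact h1.not_gt zero_lt_one
    refine pt_of_chart (i := j) fun l => ⟨(w.chg hi h0 l).1, ?_⟩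
    rw [(w.chg hi h0 l).2]
    exact (RZ.le_iff h0).1 (hj l)⟩

theorem map_p (w : KP Y K) (μ : Hom Y X) : (w.map μ).p = w.p.comp μ.p := rfl

theorem red_p (w : KP X K) (p : Hb.LP K E) : (w.red p).p = (plc p).comp w.p := rfl

theorem map_comp (w : KP Z K) (ν : Hom Z Y) (μ : Hom Y X) :
    w.map (Mor.comp μ ν) = (w.map ν).map μ := KP.ext (comp_assoc _ _ _).symm

theorem map_id (w : KP X K) : w.map (idH X) = w := KP.ext (comp_id _)

theorem red_map (w : KP Y K) (μ : Hom Y X) (p : Hb.LP K E) :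
    (w.map μ).red p = (w.red p).map μ := KP.ext (comp_assoc _ _ _).symm

theorem red_comp (w : KP X K) (p : Hb.LP K E) (q : Hb.LP E L) :
    w.red (p.comp q) = (w.red p).red q := KP.ext (by
  rw [red_p, red_p, red_p, plc_comp, comp_assoc])

theorem red_hom_p (w : KP X K) (α : K →ₐ[ℂ] E) :
    (w.red (Hb.LP.hom α)).p = (Plc.ofHom α).comp w.p := by rw [red_p, plc_hom]

theorem red_id (w : KP X K) : w.red (Hb.LP.hom (AlgHom.id ℂ K)) = w := KP.ext (by
  rw [red_hom_p, id_comp])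

/-- equality as morphisms `Spec K → X` -/
def Same (w w' : KP X K) : Prop :=
  ∃ x : X.Pt, (lp x).O ≤ w.p.O ∧ (lp x).O ≤ w'.p.O ∧ ∀ f ∈ (lp x).O, w.p.π f = w'.p.π f

variable {w w' w'' : KP X K}

theorem Same.at (h : w.Same w') {x : X.Pt} (hx : (lp x).O ≤ w.p.O) {f : X.F}
    (hf : f ∈ (lp x).O) : f ∈ w'.p.O ∧ w.p.π f = w'.p.π f := by
  obtain ⟨x₁, h1, h2, h3⟩ := h
  obtain ⟨a, ha, c, hc, h4, h5⟩ := two_pt hx h1 hf
  have h6 : w.p.π c ≠ 0 := un_plc.1 h4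
  have h7 : w'.p.π c ≠ 0 := h3 c hc ▸ h6
  rw [eq_div_of_mul_eq (Plc.ne_zero_of_ne h6) h5, Plc.π_div (h1 ha) h6, Plc.π_div (h2 ha) h7,
    h3 a ha, h3 c hc]
  exact ⟨Plc.div_mem (h2 ha) h7, rfl⟩

theorem Same.rfl : w.Same w := w.pt.imp fun _ h => ⟨h, h, fun _ _ => _root_.rfl⟩

theorem Same.of_eq (h : w = w') : w.Same w' := h ▸ Same.rfl

theorem Same.symm (h : w.Same w') : w'.Same w :=
  h.imp fun _ h => ⟨h.2.1, h.1, fun f hf => (h.2.2 f hf).symm⟩

theorem Same.trans (h : w.Same w') (h' : w'.Same w'') : w.Same w'' :=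
  h.imp fun _ h => ⟨h.1, fun _ hf => (h'.at h.2.1 hf).1,
    fun f hf => (h.2.2 f hf).trans (h'.at h.2.1 hf).2⟩

theorem Same.map {w w' : KP Y K} (h : w.Same w') (μ : Hom Y X) : (w.map μ).Same (w'.map μ) := by
  obtain ⟨y, h1, h2, h3⟩ := h
  exact ⟨μ.map y, fun _ hf => ⟨μ.mem_O hf, h1 (μ.π_mem hf)⟩,
    fun _ hf => ⟨μ.mem_O hf, h2 (μ.π_mem hf)⟩, fun _ hf => h3 _ (μ.π_mem hf)⟩

theorem Same.red (h : w.Same w') (p : Hb.LP K E) : (w.red p).Same (w'.red p) := by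
  obtain ⟨x, hx⟩ := (w.red p).pt
  have h1 : ∀ f ∈ (lp x).O, f ∈ w'.p.O ∧ w.p.π f = w'.p.π f := fun f hf =>
    h.at (fun _ hg => (hx hg).1) hf
  exact ⟨x, hx, fun f hf => ⟨(h1 f hf).1, (h1 f hf).2 ▸ (hx hf).2⟩,
    fun f hf => congrArg (plc p).π (h1 f hf).2⟩

/-- it is enough to compare the coordinates in one chart -/
theorem same_of_chart {i : Fin (X.P.N + 1)} (h1 : ∀ j, X.P.y j / X.P.y i ∈ w.p.O)
    (h2 : ∀ j, X.P.y j / X.P.y i ∈ w'.p.O)
    (h3 : ∀ j, w.p.π (X.P.y j / X.P.y i) = w'.p.π (X.P.y j / X.P.y i)) : w.Same w' := by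
  have key : ∀ a ∈ X.P.A i, a ∈ w.p.O ∧ a ∈ w'.p.O ∧ w.p.π a = w'.p.π a := fun a ha => by
    obtain ⟨q, rfl⟩ := exists_poly ha
    exact ⟨(Plc.π_aeval h1 q).1, (Plc.π_aeval h2 q).1, by
      rw [(Plc.π_aeval h1 q).2, (Plc.π_aeval h2 q).2, funext h3]⟩
  obtain ⟨x, hx, h4⟩ := exists_pt_le (P := X.P) (i := i) (q := w.p) fun a ha => (key a ha).1
  have h5 : ∀ f ∈ (lp x).O, f ∈ w'.p.O ∧ w.p.π f = w'.p.π f := fun f hf => by
    obtain ⟨a, ha, c, hc, h0, h6⟩ := (mem_lp_iff hx).1 hf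
    have h7 : w.p.π c ≠ 0 := Strat.Fac.π_ne h4 (Res.Log.un_iff.2 h0)
    have h8 : w'.p.π c ≠ 0 := (key c hc).2.2 ▸ h7
    rw [eq_div_of_mul_eq (Plc.ne_zero_of_ne h7) h6, Plc.π_div (key a ha).1 h7,
      Plc.π_div (key a ha).2.1 h8, (key a ha).2.2, (key c hc).2.2]
    exact ⟨Plc.div_mem (key a ha).2.1 h8, rfl⟩
  exact ⟨x, h4, fun f hf => (h5 f hf).1, fun f hf => (h5 f hf).2⟩

end KP

open KP

theorem gen_red (α : X.F →ₐ[ℂ] K) (β : K →ₐ[ℂ] E) :
    (gen X α).red (Hb.LP.hom β) = gen X (β.comp α) := KP.ext (by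
  rw [red_hom_p]
  exact ofHom_comp β α)

theorem gen_map {μ : Hom Y X} {α : X.F →ₐ[ℂ] Y.F} (h : μ.p = Plc.ofHom α) (β : Y.F →ₐ[ℂ] K) :
    (gen Y β).map μ = gen X (β.comp α) := KP.ext (by
  rw [map_p, h]
  exact ofHom_comp β α)

theorem gen_id_map (μ : Hom Y X) : ((gen Y (AlgHom.id ℂ Y.F)).map μ).p = μ.p := id_comp _

/-- a morphism is determined by the image of the generic point -/
theorem map_eq_of_same {μ ν : Hom Y X} {α : Y.F →ₐ[ℂ] K}
    (h : ((gen Y α).map μ).Same ((gen Y α).map ν)) : μ.map = ν.map := funext fun y => by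
  have h1 : ∀ f ∈ (lp (μ.map y)).O, f ∈ ν.p.O ∧ μ.p.π f = ν.p.π f := fun f hf => by
    have h2 := h.at (x := μ.map y) (fun _ hg => ⟨μ.mem_O hg, Algebra.mem_top⟩) hf
    exact ⟨h2.1.1, α.injective h2.2⟩
  refine (ν.map_eq ⟨fun f hf => ⟨(h1 f hf).1, (h1 f hf).2 ▸ μ.π_mem hf⟩, fun f hf => ?_⟩).symm
  rw [LP.comap_v, ← (h1 f hf).2]
  exact (μ.ev_map hf).symm

theorem same_of_map_eq {μ ν : Hom Y X} (h : μ.map = ν.map) (w : KP Y K) :
    (w.map μ).Same (w.map ν) := by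
  obtain ⟨y, hy⟩ := w.pt
  refine ⟨μ.map y, fun _ hf => ⟨μ.mem_O hf, hy (μ.π_mem hf)⟩,
    fun _ hf => ⟨ν.mem_O (h ▸ hf), hy (ν.π_mem (h ▸ hf))⟩, fun f hf => congrArg w.p.π ?_⟩
  by_contra h0
  obtain ⟨y', h1, h2⟩ := (dense_ne Y.P (sub_ne_zero.2 h0)).inter_nhds_nonempty
    (μ.continuous.continuousAt.eventually (eventually_mem hf))
  refine h1 ?_
  have h3 : f ∈ (lp (ν.map y')).O := h ▸ h2
  change (lp y').v _ = 0
  rw [LP.v_sub (μ.π_mem h2) (ν.π_mem h3), sub_eq_zero]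
  exact (μ.ev_map h2).symm.trans ((congrArg (fun m : Y.Pt → X.Pt => ev f (m y')) h).trans
    (ν.ev_map h3))

/-- a morphism which sends the generic point to a generic point is dominant -/
theorem exists_hom_of_same {μ : Hom Y X} {β : Y.F →ₐ[ℂ] K} {γ : X.F →ₐ[ℂ] K}
    (h : ((gen Y β).map μ).Same (gen X γ)) :
    ∃ α : X.F →ₐ[ℂ] Y.F, μ.p = Plc.ofHom α ∧ β.comp α = γ := by
  have key : ∀ f : X.F, f ∈ μ.p.O ∧ γ f = β (μ.p.π f) := fun f => by
    obtain ⟨x, hx, -⟩ := exists_pt_le (P := X.P) (i := 0) (q := Plc.ofHom γ) le_top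
    obtain ⟨a, ha, c, hc, h0, rfl⟩ := X.P.frac f
    have h1 := h.symm.at (x := x) le_top (A_le hx ha)
    have h2 := h.symm.at (x := x) le_top (A_le hx hc)
    have h3 : γ a = β (μ.p.π a) := h1.2
    have h4 : γ c = β (μ.p.π c) := h2.2
    have h5 : μ.p.π c ≠ 0 := fun h6 => h0 ((map_eq_zero γ).1 (by rw [h4, h6, map_zero]))
    exact ⟨Plc.div_mem h1.1.1 h5, by rw [Plc.π_div h1.1.1 h5, map_div₀, map_div₀, h3, h4]⟩
  obtain ⟨α, hα⟩ := exists_ofHom fun f => (key f).1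
  exact ⟨α, hα, AlgHom.ext fun f => by rw [(key f).2, hα]; rfl⟩

/-! ### resolution -/

/-- the divisor which must be Cartier for a point to be a morphism -/
theorem exists_bd (w : KP X K) : ∃ a : BD ℂ K, ∀ P : PModel ℂ K, a ∈ On P →
    ∃ μ : Hom (sv P) X, μ.p = w.p := by
  obtain ⟨i, hi⟩ := w.exists_chart
  refine ⟨mxf ℂ fun j => w.p.π (X.P.y j / X.P.y i), fun P hP => ⟨⟨w.p, fun x => ?_⟩, rfl⟩⟩
  obtain ⟨j, h0, hj⟩ := gn_of_mem ⟨i, by rw [w.π_self]; exact one_ne_zero⟩ hP x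
  exact ⟨j, fun l => ⟨(w.chg hi h0 l).1, (w.chg hi h0 l).2 ▸ hj l⟩⟩

theorem map_gen_id {P : PModel ℂ K} {μ : Hom (sv P) X} {w : KP X K} (h : μ.p = w.p) :
    (gen (sv P) (AlgHom.id ℂ K)).map μ = w := KP.ext ((gen_id_map μ).trans h)

/-- a point with values in a function field is a morphism on a suitable model -/
theorem exists_mor [Algebra.EssFiniteType ℂ K] (w : KP X K) (T : Finset (BD ℂ K)) :
    ∃ (P : PModel ℂ K) (μ : Hom (sv P) X), (∀ a ∈ T, a ∈ On P) ∧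
      (gen (sv P) (AlgHom.id ℂ K)).map μ = w := by
  classical
  obtain ⟨a, ha⟩ := exists_bd w
  obtain ⟨P, hP⟩ := Unf.exists_on (insert a T)
  obtain ⟨μ, hμ⟩ := ha P (hP a (Finset.mem_insert_self _ _))
  exact ⟨P, μ, fun b hb => hP b (Finset.mem_insert_of_mem hb), map_gen_id hμ⟩

/-- the point with given coordinates in a chart -/
def ofChart (i : Fin (X.P.N + 1)) (ψ : X.P.A i →ₐ[ℂ] K) : KP X K :=
  ⟨plcAt ψ, pt_of_chart (i := i) fun j => le_plcAt ψ (div_mem_chart _ i j)⟩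

theorem ofChart_mem (i : Fin (X.P.N + 1)) (ψ : X.P.A i →ₐ[ℂ] K) (j : Fin (X.P.N + 1)) :
    X.P.y j / X.P.y i ∈ (ofChart i ψ).p.O := le_plcAt ψ (div_mem_chart _ i j)

theorem ofChart_π (i : Fin (X.P.N + 1)) (ψ : X.P.A i →ₐ[ℂ] K) (j : Fin (X.P.N + 1)) :
    (ofChart i ψ).p.π (X.P.y j / X.P.y i) = ψ (AN.G1.gen X.P i j) :=
  plcAt_π ψ (AN.G1.gen X.P i j)

/-- a point descends to every subfield which contains its coordinates -/
theorem exists_desc (w : KP X K) {i : Fin (X.P.N + 1)} (hi : ∀ j, X.P.y j / X.P.y i ∈ w.p.O)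
    (K₀ : IntermediateField ℂ K) (h : ∀ j, w.p.π (X.P.y j / X.P.y i) ∈ K₀) :
    ∃ w₀ : KP X K₀, (w₀.red (Hb.LP.hom K₀.val)).Same w := by
  have hA : X.P.A i ≤ w.p.O := Algebra.adjoin_le (Set.range_subset_iff.2 hi)
  have h1 : ∀ a : X.P.A i, psi hA a ∈ K₀.toSubalgebra := fun a => by
    obtain ⟨q, hq⟩ := exists_poly a.2
    rw [Strat.Fac.psi_apply, ← hq, (Plc.π_aeval hi q).2]
    exact Algebra.adjoin_le (S := K₀.toSubalgebra) (Set.range_subset_iff.2 h)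
      (by rw [Algebra.adjoin_range_eq_range_aeval]; exact ⟨q, rfl⟩)
  let ψ : X.P.A i →ₐ[ℂ] K₀ := (psi hA).codRestrict K₀.toSubalgebra h1
  refine ⟨ofChart i ψ, same_of_chart (i := i) (fun j => ?_) hi fun j => ?_⟩
  · rw [red_hom_p]
    exact ⟨ofChart_mem i ψ j, Algebra.mem_top⟩
  · rw [red_hom_p, comp_π, ofChart_π]
    rfl

theorem eft_adjoin (s : Finset K) :
    Algebra.EssFiniteType ℂ (IntermediateField.adjoin ℂ (s : Set K)) :=
  IntermediateField.essFiniteType_iff.2 (IntermediateField.fg_adjoin_finset s)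

/-- a point is defined over a finitely generated subfield -/
theorem exists_fg (w : KP X K) : ∃ (K₀ : IntermediateField ℂ K) (w₀ : KP X K₀),
    Algebra.EssFiniteType ℂ K₀ ∧ (w₀.red (Hb.LP.hom K₀.val)).Same w := by
  classical
  obtain ⟨i, hi⟩ := w.exists_chart
  obtain ⟨w₀, h⟩ := exists_desc w hi (IntermediateField.adjoin ℂ
    ((Finset.univ.image fun j => w.p.π (X.P.y j / X.P.y i) : Finset K) : Set K))
    fun j => IntermediateField.subset_adjoin _ _ (by simp)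
  exact ⟨_, w₀, eft_adjoin _, h⟩

/-- the point of the product with given components -/
def KP.pair (w : KP X K) (w' : KP Y K) : KP (X.prod Y) K :=
  ⟨Cns.plcP (R274.Prod1_134.isPF ℂ X.F Y.F) w.p w'.p, by
    obtain ⟨i, hi⟩ := w.exists_chart
    obtain ⟨j, hj⟩ := w'.exists_chart
    refine pt_of_chart (X := X.prod Y)
      (i := (Cns.eP X.P Y.P (R274.Prod1_134.isPF ℂ X.F Y.F)).symm (i, j)) fun l => ?_
    rw [Cns.prod_y_div, Equiv.apply_symm_apply]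
    exact (Cns.plcP_mul _ (hi _) (hj _)).1⟩

theorem pair_fst (w : KP X K) (w' : KP Y K) : ((w.pair w').map (fst X Y)).Same w :=
  w.pt.imp fun _ hx => ⟨fun _ hf => ⟨Algebra.mem_top, (Cns.plcP_left _ w'.p (hx hf)).1⟩, hx,
    fun _ hf => (Cns.plcP_left _ w'.p (hx hf)).2⟩

theorem pair_snd (w : KP X K) (w' : KP Y K) : ((w.pair w').map (snd X Y)).Same w' :=
  w'.pt.imp fun _ hx => ⟨fun _ hf => ⟨Algebra.mem_top, (Cns.plcP_right _ w.p (hx hf)).1⟩, hx,
    fun _ hf => (Cns.plcP_right _ w.p (hx hf)).2⟩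

end Crest.Agent.X262.Hb64
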