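import Crest.Agent.X262.Hb64.Dict

/-!
# Row 262, road B, Hb64 (helper64), part 7: points as morphisms on models, the record `Vir`

* `IsPt.exists_scl`, `isPt_of_scl` : coordinates up to scalars;
* `exists_rep` : a point of the target is a morphism on every large model;
* `vir` : the inputs of the invariants for the instance.
-/

set_option autoImplicit false

noncomputable section

namespace Crest.Agent.X262.Hb64

open Crest.Agent.X277 Crest.Agent.X277.Lef Crest.Agent.X277.AN.G1 Crest.Agent.X277.BD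
  Crest.Agent.X277.BD.Br Crest.Agent.X262.Coh KP
open Crest.Agent.X262.Gwb (Tup Pre)
open Crest.Agent.X262.Vb (Pnt NZ)

variable {Y : SV} {K : Type} [Field K] [Algebra ℂ K] {m : Pre Y} {w : KP Y K} {z : Pnt (io m) K}

theorem IsPt.exists_scl (h : IsPt m w z) (hz : NZ z) : ∃ (u : m.J → Y.F) (c : m.J → K),
    (∀ j, c j ≠ 0) ∧ ∀ j i, m.y j i / u j ∈ w.p.O ∧ z j i = c j * w.p.π (m.y j i / u j) := by
  choose c hc using hz
  exact ⟨fun j => yy m j (c j), fun j => z j (c j), hc, fun j i => ⟨(h j i _ (hc j)).1,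
    ((congrArg _ (h j i _ (hc j)).2).trans (mul_div_cancel₀ _ (hc j))).symm⟩⟩


variable (C : Coh.Th) [hC : Ok C]

/-- a point of the target is a morphism on every large model of its field -/
theorem exists_rep (hz : NZ z) (h : m.On z) : ∃ a : BD ℂ K, ∀ P : PModel ℂ K, a ∈ On P →
    ∃ μ : Hom (sv P) Y, (∃ (u : m.J → Y.F) (c : m.J → K), (∀ j, c j ≠ 0) ∧
      ∀ j i, m.y j i / u j ∈ μ.p.O ∧ z j i = c j * μ.p.π (m.y j i / u j)) ∧
      ∀ x, (inst C).ev m K z x = Hb64.ev C (gen (sv P) (AlgHom.id ℂ K)) (C.pb μ x) := by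
  have h1 := Rel.isPt h hz
  obtain ⟨a, ha⟩ := exists_bd (kp m z)
  refine ⟨a, fun P hP => ?_⟩
  obtain ⟨μ, hμ⟩ := ha P hP
  refine ⟨μ, hμ ▸ h1.exists_scl hz, fun x => ?_⟩
  rw [← ev_map, map_gen_id hμ]
  rfl


/-- **the inputs of the invariants** for the instance -/
def vir (hd : ∀ {Y : SV} (m : Gwb.Emb Y) {ι : Type} [Fintype ι] (u u' : ι → C.H Y),
    (∀ a b, C.itg Y (a * b) = ∑ l, C.itg Y (a * u l) * C.itg Y (b * u' l)) →
    Vb.Diag (th C) m.tgt (fun l => ((inst C).e m.toPre).fam (u l))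
      fun l => ((inst C).e m.toPre).fam (u' l)) (smo : Gwb.SmoStmt) (gen : Gwb.GenStmt)
    (ax0 : Vb.Ax0Stmt) (axS : Vb.AxSStmt) (deg0 : Vb.Deg0Stmt) (wdvv : Vb.WdvvStmt) :
    Gwb.Vir C (th C) :=
  ⟨inst C, inst_ax C hd, hC.man, hC.pd, hC.typ, th_ax C, smo, gen, ax0, axS, deg0, wdvv⟩

end Crest.Agent.X262.Hb64
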